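import Vale.Agent.helper3.Lobes
import Vale.Agent.helper3.HullData
import Vale.Agent.Results.P123.ConvexLemniscate

/-!
# The bound `‖A ^ 2 - 1‖ ≤ 2 M` when `|z ^ 2 - 1| ≤ M` on the numerical range of `A`
-/

open Polynomial ContinuousLinearMap

namespace Vale.Agent.helper3.Ridge

/-! ### The sublevel sets with `M ≥ 2` are convex -/

lemma two_sides_lt (c d : ℂ) (hs : 2 < ‖c ^ 2 - 1‖) (hd : d ≠ 0) :
    2 * ‖c ^ 2 - 1‖ ^ 2 < ‖(c + d) ^ 2 - 1‖ ^ 2 + ‖(c - d) ^ 2 - 1‖ ^ 2 := by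
  set s := c ^ 2 - 1 with hsdef
  set w := d ^ 2 with hw
  have h1 : (c + d) ^ 2 - 1 = (s + w) + 2 * c * d := by rw [hsdef, hw]; ring
  have h2 : (c - d) ^ 2 - 1 = (s + w) - 2 * c * d := by rw [hsdef, hw]; ring
  have hpar := parallelogram_law_with_norm ℝ (s + w) (2 * c * d)
  rw [← h1, ← h2] at hpar
  have hn2 : ‖2 * c * d‖ = 2 * ‖c‖ * ‖d‖ := by
    rw [norm_mul, norm_mul]; simp
  have hnw : ‖w‖ = ‖d‖ ^ 2 := by rw [hw, norm_pow]
  have htri : |‖s‖ - ‖w‖| ≤ ‖s + w‖ := by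
    have := abs_norm_sub_norm_le s (-w)
    simpa using this
  have hsq : (‖s‖ - ‖w‖) ^ 2 ≤ ‖s + w‖ ^ 2 := by
    rw [← sq_abs (‖s‖ - ‖w‖)]
    exact pow_le_pow_left₀ (abs_nonneg _) htri 2
  have hcs : ‖s‖ ≤ ‖c‖ ^ 2 + 1 := by
    have := norm_sub_le (c ^ 2) (1 : ℂ)
    simpa [norm_pow, hsdef] using this
  have hdpos : 0 < ‖d‖ := norm_pos_iff.mpr hd
  have hc1 : 1 < ‖c‖ ^ 2 := by linarith
  have hkey : 0 < ‖d‖ ^ 2 * (8 * ‖c‖ ^ 2 - 4 * ‖s‖ + 2 * ‖d‖ ^ 2) := by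
    apply mul_pos (by positivity)
    nlinarith [sq_nonneg ‖d‖]
  rw [hnw] at hsq
  rw [hn2] at hpar
  nlinarith

lemma convex_lemniscate (M : ℝ) (hM : 2 ≤ M) :
    Convex ℝ {z : ℂ | ‖(X ^ 2 - 1 : ℂ[X]).eval z‖ ≤ M} := by
  have hev : ∀ z : ℂ, (X ^ 2 - 1 : ℂ[X]).eval z = z ^ 2 - 1 := by
    intro z; simp
  intro a ha b hb t1 t2 ht1 ht2 hsum
  simp only [Set.mem_setOf_eq, hev] at ha hb ⊢
  by_cases hab : a = b
  · have : t1 • a + t2 • b = a := by
      rw [hab, ← add_smul, hsum, one_smul]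
    rw [this, hab]
    exact hb
  set ζ : ℝ → ℂ := fun t => a + (t : ℂ) * (b - a) with hζ
  set g : ℝ → ℝ := fun t => ‖ζ t ^ 2 - 1‖ ^ 2 with hg
  have hgc : Continuous g := by
    simp only [hg, hζ]
    fun_prop
  obtain ⟨t0, ht0, hmax⟩ := isCompact_Icc.exists_isMaxOn (Set.nonempty_Icc.mpr zero_le_one) hgc.continuousOn
  have hg0 : g 0 ≤ M ^ 2 := by
    simp only [hg, hζ]
    simp only [Complex.ofReal_zero, zero_mul, add_zero]
    exact pow_le_pow_left₀ (norm_nonneg _) ha 2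
  have hg1 : g 1 ≤ M ^ 2 := by
    simp only [hg, hζ]
    simp only [Complex.ofReal_one, one_mul, add_sub_cancel]
    exact pow_le_pow_left₀ (norm_nonneg _) hb 2
  have hall : g t0 ≤ M ^ 2 := by
    by_contra hcon
    push Not at hcon
    have ht00 : t0 ≠ 0 := by
      rintro rfl
      linarith
    have ht01 : t0 ≠ 1 := by
      rintro rfl
      linarith
    have hpos0 : 0 < t0 := lt_of_le_of_ne ht0.1 (Ne.symm ht00)
    have hpos1 : t0 < 1 := lt_of_le_of_ne ht0.2 ht01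
    set ε : ℝ := min t0 (1 - t0) with hε
    have hεpos : 0 < ε := lt_min hpos0 (by linarith)
    have hε1 : ε ≤ t0 := min_le_left _ _
    have hε2 : ε ≤ 1 - t0 := min_le_right _ _
    have hp : t0 + ε ∈ Set.Icc (0 : ℝ) 1 := ⟨by linarith, by linarith⟩
    have hm : t0 - ε ∈ Set.Icc (0 : ℝ) 1 := ⟨by linarith, by linarith⟩
    have h1 := hmax hp
    have h2 := hmax hm
    simp only [Set.mem_setOf_eq] at h1 h2
    set c := ζ t0 with hc
    set d : ℂ := (ε : ℂ) * (b - a) with hd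
    have hdne : d ≠ 0 := by
      rw [hd]
      refine mul_ne_zero ?_ (sub_ne_zero.mpr (Ne.symm hab))
      exact_mod_cast hεpos.ne'
    have hzp : ζ (t0 + ε) = c + d := by
      simp only [hζ, hc, hd]; push_cast; ring
    have hzm : ζ (t0 - ε) = c - d := by
      simp only [hζ, hc, hd]; push_cast; ring
    have hgt : g t0 = ‖c ^ 2 - 1‖ ^ 2 := rfl
    have hgp : g (t0 + ε) = ‖(c + d) ^ 2 - 1‖ ^ 2 := by
      simp only [hg]; rw [hzp]
    have hgm : g (t0 - ε) = ‖(c - d) ^ 2 - 1‖ ^ 2 := by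
      simp only [hg]; rw [hzm]
    have hs2 : 2 < ‖c ^ 2 - 1‖ := by
      have h4 : (2 : ℝ) ^ 2 < ‖c ^ 2 - 1‖ ^ 2 := by
        rw [← hgt]
        calc (2 : ℝ) ^ 2 ≤ M ^ 2 := pow_le_pow_left₀ (by norm_num) hM 2
          _ < g t0 := hcon
      exact lt_of_pow_lt_pow_left₀ 2 (norm_nonneg _) h4
    have := two_sides_lt c d hs2 hdne
    rw [← hgt, ← hgp, ← hgm] at this
    linarith
  -- conclusion
  have hmem : t2 ∈ Set.Icc (0 : ℝ) 1 := ⟨ht2, by linarith⟩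
  have h3 := hmax hmem
  simp only [Set.mem_setOf_eq] at h3
  have h4 : g t2 ≤ M ^ 2 := h3.trans hall
  have h5 : ζ t2 = t1 • a + t2 • b := by
    have : t1 = 1 - t2 := by linarith
    simp only [hζ, this, Complex.real_smul]
    push_cast
    ring
  simp only [hg] at h4
  rw [h5] at h4
  exact (sq_le_sq₀ (norm_nonneg _) (by linarith)).mp h4

variable {H : Type*} [NormedAddCommGroup H] [InnerProductSpace ℂ H] [CompleteSpace H]

/-- The case `M ≥ 2`. -/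
theorem core_large (A : H →L[ℂ] H) (M : ℝ) (hM : 2 ≤ M)
    (hA : ∀ x : H, ‖x‖ = 1 → ‖(inner ℂ x (A x)) ^ 2 - 1‖ ≤ M) :
    ‖A ^ 2 - 1‖ ≤ 2 * M := by
  have h := (Vale.Agent.Results.P123.ConvexLemniscate.result A (X ^ 2 - 1 : ℂ[X]) M (by linarith) ?_
    (convex_lemniscate M hM)).2
  · simpa using h
  · rintro z ⟨x, hx, rfl⟩
    simpa using hA x hx

/-- The range of the numerical cells. -/
theorem core_middle (A : H →L[ℂ] H) (M : ℝ) (h1 : 91 / 100 ≤ M) (h2 : M < 2)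
    (hA : ∀ x : H, ‖x‖ = 1 → ‖(inner ℂ x (A x)) ^ 2 - 1‖ ≤ M) :
    ‖A ^ 2 - 1‖ ≤ 2 * M := by
  obtain ⟨C, hC, _, hlo, hhi⟩ := coversFrom_sound 1000000 (by norm_num) 2000000 hullCells 910000
    hullCells_cover M (by norm_num; linarith) (by norm_num; linarith)
  exact Cell.sound C (List.all_eq_true.mp hullCells_ok C hC) A M hlo hhi hA

/-- The lobe cases. -/
theorem core_right_lobe (A : H →L[ℂ] H) (M : ℝ) (h0 : 0 ≤ M) (h1 : M < 91 / 100)
    (hA : ∀ x : H, ‖x‖ = 1 → 0 < (inner ℂ x (A x)).re ∧ ‖(inner ℂ x (A x)) ^ 2 - 1‖ ≤ M) :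
    ‖A ^ 2 - 1‖ ≤ 2 * M := by
  by_cases hM : M ≤ 80 / 89
  · -- closed form
    have hMsq : M ^ 2 ≤ 1 := by nlinarith
    set r : ℝ := Real.sqrt (1 - M ^ 2) with hr
    have hr0 : 0 ≤ r := Real.sqrt_nonneg _
    have hr2 : r ^ 2 = 1 - M ^ 2 := Real.sq_sqrt (by linarith)
    have hr1 : r ≤ 1 := by nlinarith [sq_nonneg M]
    have hr39 : 39 / 89 ≤ r := by
      have : (39 / 89 : ℝ) ^ 2 ≤ r ^ 2 := by
        rw [hr2]; nlinarith
      exact (sq_le_sq₀ (by norm_num) hr0).mp this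
    set c : ℝ := Real.sqrt ((1 + r) / 2) with hc
    set s : ℝ := Real.sqrt ((1 - r) / 2) with hs
    have hc2 : c ^ 2 = (1 + r) / 2 := Real.sq_sqrt (by linarith)
    have hs2 : s ^ 2 = (1 - r) / 2 := Real.sq_sqrt (by linarith)
    have hcpos : 0 < c := Real.sqrt_pos.mpr (by linarith)
    have hsnn : 0 ≤ s := Real.sqrt_nonneg _
    have hcs : c ^ 2 + s ^ 2 = 1 := by rw [hc2, hs2]; ring
    have h2cs : 2 * c * s = M := by
      have h3 : (2 * c * s) ^ 2 = M ^ 2 := by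
        have : (2 * c * s) ^ 2 = 4 * c ^ 2 * s ^ 2 := by ring
        rw [this, hc2, hs2]
        nlinarith
      exact (sq_eq_sq₀ (by positivity) h0).mp h3
    have h85 : 8 * s ≤ 5 * c := by
      have : (8 * s) ^ 2 ≤ (5 * c) ^ 2 := by
        have e1 : (8 * s) ^ 2 = 64 * s ^ 2 := by ring
        have e2 : (5 * c) ^ 2 = 25 * c ^ 2 := by ring
        rw [e1, e2, hc2, hs2]
        linarith
      exact (sq_le_sq₀ (by positivity) (by positivity)).mp this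
    have := lobe_closed A c s hcpos hsnn hcs h85 (by
      intro x hx
      rw [h2cs]
      exact hA x hx)
    rwa [h2cs] at this
  · push Not at hM
    refine lobe_numeric_bound A M hM.le ?_
    intro x hx
    obtain ⟨h2, h3⟩ := hA x hx
    refine ⟨h2, h3.trans ?_⟩
    have : (91 / 100 : ℝ) ≤ 2 * (132 / 157) * (85 / 157) := by norm_num
    linarith

/-- The main bound. -/
theorem core (A : H →L[ℂ] H) (M : ℝ) (h0 : 0 ≤ M)
    (hA : ∀ x : H, ‖x‖ = 1 → ‖(inner ℂ x (A x)) ^ 2 - 1‖ ≤ M) :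
    ‖A ^ 2 - 1‖ ≤ 2 * M := by
  by_cases h2 : 2 ≤ M
  · exact core_large A M h2 hA
  push Not at h2
  by_cases h1 : 91 / 100 ≤ M
  · exact core_middle A M h1 h2 hA
  push Not at h1
  rcases re_sign A M (by linarith) hA with hs | hs
  · exact core_right_lobe A M h0 h1 (fun x hx => ⟨hs x hx, hA x hx⟩)
  · have := core_right_lobe (-A) M h0 h1 (by
      intro x hx
      have e : inner ℂ x ((-A) x) = -inner ℂ x (A x) := by
        simp [inner_neg_right]
      rw [e]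
      constructor
      · simpa using hs x hx
      · rw [neg_sq]
        exact hA x hx)
    simpa [neg_sq] using this

end Vale.Agent.helper3.Ridge
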