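import Vale.Agent.helper3.RidgeBasic

/-!
# A checker for ridge certificates of `z ↦ z ^ 2 - 1`, even quartic profile functions
-/

open Polynomial ContinuousLinearMap

namespace Vale.Agent.helper3.Ridge

/-! ### Bernstein positivity of a quartic -/

/-- Bernstein coefficients of a quartic on the piece `[i / P, (i + 1) / P]`. -/
def bern0 (r0 r1 r2 r3 r4 P I : ℤ) : ℤ :=
  r0 * P ^ 4 + r1 * P ^ 3 * I + r2 * P ^ 2 * I ^ 2 + r3 * P * I ^ 3 + r4 * I ^ 4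

/-- Bernstein coefficient. -/
def bern1 (r0 r1 r2 r3 r4 P I J : ℤ) : ℤ :=
  4 * r0 * P ^ 4 + r1 * P ^ 3 * (3 * I + J) + r2 * P ^ 2 * (2 * I ^ 2 + 2 * I * J)
    + r3 * P * (I ^ 3 + 3 * I ^ 2 * J) + 4 * r4 * I ^ 3 * J

/-- Bernstein coefficient. -/
def bern2 (r0 r1 r2 r3 r4 P I J : ℤ) : ℤ :=
  6 * r0 * P ^ 4 + r1 * P ^ 3 * (3 * I + 3 * J) + r2 * P ^ 2 * (I ^ 2 + 4 * I * J + J ^ 2)
    + r3 * P * (3 * I ^ 2 * J + 3 * I * J ^ 2) + 6 * r4 * I ^ 2 * J ^ 2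

/-- Bernstein coefficient. -/
def bern3 (r0 r1 r2 r3 r4 P I J : ℤ) : ℤ :=
  4 * r0 * P ^ 4 + r1 * P ^ 3 * (I + 3 * J) + r2 * P ^ 2 * (2 * I * J + 2 * J ^ 2)
    + r3 * P * (3 * I * J ^ 2 + J ^ 3) + 4 * r4 * I * J ^ 3

/-- Bernstein coefficient. -/
def bern4 (r0 r1 r2 r3 r4 P J : ℤ) : ℤ :=
  r0 * P ^ 4 + r1 * P ^ 3 * J + r2 * P ^ 2 * J ^ 2 + r3 * P * J ^ 3 + r4 * J ^ 4

/-- All Bernstein coefficients on all pieces are nonnegative. -/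
def bernOK (r0 r1 r2 r3 r4 : ℤ) (P : ℕ) : Bool :=
  (List.range P).all fun i =>
    let I : ℤ := (i : ℤ)
    let J : ℤ := (i : ℤ) + 1
    let Q : ℤ := (P : ℤ)
    decide (0 ≤ bern0 r0 r1 r2 r3 r4 Q I) && decide (0 ≤ bern1 r0 r1 r2 r3 r4 Q I J) &&
      decide (0 ≤ bern2 r0 r1 r2 r3 r4 Q I J) && decide (0 ≤ bern3 r0 r1 r2 r3 r4 Q I J) &&
      decide (0 ≤ bern4 r0 r1 r2 r3 r4 Q J)

lemma bern_identity (r0 r1 r2 r3 r4 P I J : ℤ) (hJ : J = I + 1) (τ : ℝ) :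
    (P : ℝ) ^ 4 * ((r0 : ℝ) + r1 * τ + r2 * τ ^ 2 + r3 * τ ^ 3 + r4 * τ ^ 4)
      = (bern0 r0 r1 r2 r3 r4 P I : ℝ) * (J - P * τ) ^ 4
        + (bern1 r0 r1 r2 r3 r4 P I J : ℝ) * ((J - P * τ) ^ 3 * (P * τ - I))
        + (bern2 r0 r1 r2 r3 r4 P I J : ℝ) * ((J - P * τ) ^ 2 * (P * τ - I) ^ 2)
        + (bern3 r0 r1 r2 r3 r4 P I J : ℝ) * ((J - P * τ) * (P * τ - I) ^ 3)
        + (bern4 r0 r1 r2 r3 r4 P J : ℝ) * (P * τ - I) ^ 4 := by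
  subst hJ
  simp only [bern0, bern1, bern2, bern3, bern4]
  push_cast
  ring

lemma bernOK_nonneg (r0 r1 r2 r3 r4 : ℤ) (P : ℕ) (hP : 0 < P)
    (h : bernOK r0 r1 r2 r3 r4 P = true) (τ : ℝ) (h0 : 0 ≤ τ) (h1 : τ ≤ 1) :
    0 ≤ (r0 : ℝ) + r1 * τ + r2 * τ ^ 2 + r3 * τ ^ 3 + r4 * τ ^ 4 := by
  have hPr : (0 : ℝ) < P := by exact_mod_cast hP
  -- choose the piece
  obtain ⟨i, hi, hi0, hi1⟩ : ∃ i : ℕ, i < P ∧ (i : ℝ) ≤ P * τ ∧ P * τ ≤ (i : ℝ) + 1 := by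
    by_cases hτ : τ = 1
    · refine ⟨P - 1, by omega, ?_, ?_⟩
      · have : ((P - 1 : ℕ) : ℝ) = (P : ℝ) - 1 := by
          rw [Nat.cast_sub hP]; simp
        rw [this, hτ]; linarith
      · have : ((P - 1 : ℕ) : ℝ) = (P : ℝ) - 1 := by
          rw [Nat.cast_sub hP]; simp
        rw [this, hτ]; linarith
    · have hlt : τ < 1 := lt_of_le_of_ne h1 hτ
      have hnn : 0 ≤ (P : ℝ) * τ := by positivity
      refine ⟨⌊(P : ℝ) * τ⌋₊, ?_, Nat.floor_le hnn, (Nat.lt_floor_add_one _).le⟩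
      rw [Nat.floor_lt hnn]
      nlinarith
  have hcheck := List.all_eq_true.mp h i (List.mem_range.mpr hi)
  simp only [Bool.and_eq_true, decide_eq_true_eq] at hcheck
  obtain ⟨⟨⟨⟨h0', h1'⟩, h2'⟩, h3'⟩, h4'⟩ := hcheck
  have hid := bern_identity r0 r1 r2 r3 r4 (P : ℤ) (i : ℤ) ((i : ℤ) + 1) rfl τ
  have cast : ∀ x : ℤ, 0 ≤ x → (0 : ℝ) ≤ x := fun x hx => by exact_mod_cast hx
  have ha : (0 : ℝ) ≤ (((i : ℤ) + 1 : ℤ) : ℝ) - ((P : ℤ) : ℝ) * τ := by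
    push_cast; linarith
  have hb : (0 : ℝ) ≤ ((P : ℤ) : ℝ) * τ - ((i : ℤ) : ℝ) := by
    push_cast; linarith
  have hP4 : (0 : ℝ) < ((P : ℤ) : ℝ) ^ 4 := by
    push_cast; positivity
  have hsum : 0 ≤ ((P : ℤ) : ℝ) ^ 4 * ((r0 : ℝ) + r1 * τ + r2 * τ ^ 2 + r3 * τ ^ 3 + r4 * τ ^ 4) := by
    rw [hid]
    have t0 := mul_nonneg (cast _ h0') (pow_nonneg ha 4)
    have t1 := mul_nonneg (cast _ h1') (mul_nonneg (pow_nonneg ha 3) hb)
    have t2 := mul_nonneg (cast _ h2') (mul_nonneg (pow_nonneg ha 2) (pow_nonneg hb 2))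
    have t3 := mul_nonneg (cast _ h3') (mul_nonneg ha (pow_nonneg hb 3))
    have t4 := mul_nonneg (cast _ h4') (pow_nonneg hb 4)
    linarith
  exact nonneg_of_mul_nonneg_right hsum hP4

/-! ### Entries -/

/-- One direction in a certificate: profile `(a1 + i a2) T ^ 2 + (b1 + i b2) T + (c1 + i c2)`
with `T = t ^ 2`, bound `T ≤ l / E`, norm bound `s`, support parameters `k/K`, `r/R`, and number
of Bernstein pieces `P`. -/
structure Entry where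
  u : ℤ
  v : ℤ
  a1 : ℤ
  a2 : ℤ
  b1 : ℤ
  b2 : ℤ
  c1 : ℤ
  c2 : ℤ
  l : ℤ
  s : ℤ
  k : ℤ
  K : ℤ
  r : ℤ
  R : ℤ
  P : ℕ

/-- Quartic `s ^ 2 E ^ 4 - |A τ ^ 2 + B τ + C| ^ 2`, its five coefficients. -/
def Entry.q0 (e : Entry) (E : ℤ) : ℤ :=
  e.s ^ 2 * E ^ 4 - (e.c1 * E ^ 2) ^ 2 - (e.c2 * E ^ 2) ^ 2

/-- Coefficient. -/
def Entry.q1 (e : Entry) (E : ℤ) : ℤ :=
  -2 * ((e.b1 * e.l * E) * (e.c1 * E ^ 2) + (e.b2 * e.l * E) * (e.c2 * E ^ 2))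

/-- Coefficient. -/
def Entry.q2 (e : Entry) (E : ℤ) : ℤ :=
  -((e.b1 * e.l * E) ^ 2 + (e.b2 * e.l * E) ^ 2)
    - 2 * ((e.a1 * e.l ^ 2) * (e.c1 * E ^ 2) + (e.a2 * e.l ^ 2) * (e.c2 * E ^ 2))

/-- Coefficient. -/
def Entry.q3 (e : Entry) (E : ℤ) : ℤ :=
  -2 * ((e.a1 * e.l ^ 2) * (e.b1 * e.l * E) + (e.a2 * e.l ^ 2) * (e.b2 * e.l * E))

/-- Coefficient. -/
def Entry.q4 (e : Entry) : ℤ :=
  -((e.a1 * e.l ^ 2) ^ 2 + (e.a2 * e.l ^ 2) ^ 2)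

/-- Check of one entry for a given `M = m / E`. -/
def Entry.ok (e : Entry) (E m : ℤ) : Bool :=
  let n := e.u ^ 2 + e.v ^ 2
  decide (0 < n) && decide (0 < e.k) && decide (0 < e.K) && decide (0 ≤ e.r) && decide (0 < e.R) &&
    decide (0 < e.l) && decide (0 ≤ e.s) && decide (0 < e.P) &&
    decide (e.R ^ 2 * (n * (e.K ^ 2 + e.k ^ 2) + 2 * e.k * e.K * (e.u ^ 2 - e.v ^ 2))
      ≤ e.r ^ 2 * (n * e.K ^ 2)) &&
    decide (n * e.K * (e.r * E + m * e.R) ^ 2 ≤ e.l * (4 * e.k * e.R ^ 2 * E)) &&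
    bernOK (e.q0 E) (e.q1 E) (e.q2 E) (e.q3 E) (e.q4) e.P

/-- Sum over a list of entries. -/
def sumBy (L : List Entry) (f : Entry → ℤ) : ℤ := (L.map f).sum

/-- A cell of the range of `M`. -/
structure Cell where
  D : ℤ
  E : ℤ
  lo : ℤ
  hi : ℤ
  ents : List Entry

/-- Check of a cell. -/
def Cell.ok (C : Cell) : Bool :=
  let L := C.ents
  decide (0 < C.D) && decide (0 < C.E) && decide (0 ≤ C.lo) && decide (0 ≤ C.hi) &&
    L.all (fun e => e.ok C.E C.hi) &&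
    decide (C.E * sumBy L (fun e => e.s) ≤ 2 * C.lo * C.D) &&
    decide (sumBy L (fun e => e.a1 * e.u ^ 4) = 0) &&
    decide (sumBy L (fun e => e.a2 * e.u ^ 4) = 0) &&
    decide (sumBy L (fun e => e.a1 * (e.u ^ 3 * e.v)) = 0) &&
    decide (sumBy L (fun e => e.a2 * (e.u ^ 3 * e.v)) = 0) &&
    decide (sumBy L (fun e => e.a1 * (e.u ^ 2 * e.v ^ 2)) = 0) &&
    decide (sumBy L (fun e => e.a2 * (e.u ^ 2 * e.v ^ 2)) = 0) &&
    decide (sumBy L (fun e => e.a1 * (e.u * e.v ^ 3)) = 0) &&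
    decide (sumBy L (fun e => e.a2 * (e.u * e.v ^ 3)) = 0) &&
    decide (sumBy L (fun e => e.a1 * e.v ^ 4) = 0) &&
    decide (sumBy L (fun e => e.a2 * e.v ^ 4) = 0) &&
    decide (sumBy L (fun e => e.b1 * e.u ^ 2) = C.D) &&
    decide (sumBy L (fun e => e.b2 * e.u ^ 2) = 0) &&
    decide (sumBy L (fun e => e.b1 * (e.u * e.v)) = 0) &&
    decide (sumBy L (fun e => e.b2 * (e.u * e.v)) = C.D) &&
    decide (sumBy L (fun e => e.b1 * e.v ^ 2) = -C.D) &&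
    decide (sumBy L (fun e => e.b2 * e.v ^ 2) = 0) &&
    decide (sumBy L (fun e => e.c1) = -C.D) &&
    decide (sumBy L (fun e => e.c2) = 0)

/-! ### Support bound -/

lemma support_bound (u v κ ρ M x y : ℝ) (hn : 0 < u ^ 2 + v ^ 2) (hκ : 0 < κ) (hρ : 0 ≤ ρ)
    (hM : 0 ≤ M) (hρ2 : 1 + κ ^ 2 + 2 * κ * (u ^ 2 - v ^ 2) / (u ^ 2 + v ^ 2) ≤ ρ ^ 2)
    (h : (x ^ 2 - y ^ 2 - 1) ^ 2 + (2 * x * y) ^ 2 ≤ M ^ 2) :
    (u * x + v * y) ^ 2 ≤ (u ^ 2 + v ^ 2) / (4 * κ) * (ρ + M) ^ 2 := by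
  set n := u ^ 2 + v ^ 2 with hndef
  set e1 := (u ^ 2 - v ^ 2) / n with he1
  set e2 := 2 * u * v / n with he2
  have hunit : e1 ^ 2 + e2 ^ 2 = 1 := by
    rw [he1, he2]
    field_simp
    rw [hndef]
    ring
  -- complex numbers
  let a : ℂ := ⟨1 + κ * e1, κ * e2⟩
  let b : ℂ := ⟨x ^ 2 - y ^ 2 - 1, 2 * x * y⟩
  have hna : ‖a‖ ^ 2 ≤ ρ ^ 2 := by
    rw [Complex.sq_norm, Complex.normSq_apply]
    have : (1 + κ * e1) * (1 + κ * e1) + (κ * e2) * (κ * e2)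
        = 1 + κ ^ 2 * (e1 ^ 2 + e2 ^ 2) + 2 * κ * e1 := by ring
    simp only [a]
    rw [this, hunit, he1]
    have h3 : 2 * κ * ((u ^ 2 - v ^ 2) / n) = 2 * κ * (u ^ 2 - v ^ 2) / n := by ring
    linarith
  have hnb : ‖b‖ ^ 2 ≤ M ^ 2 := by
    rw [Complex.sq_norm, Complex.normSq_apply]
    simp only [b]
    nlinarith
  have hna' : ‖a‖ ≤ ρ := by
    exact (sq_le_sq₀ (norm_nonneg _) hρ).mp hna
  have hnb' : ‖b‖ ≤ M := by
    exact (sq_le_sq₀ (norm_nonneg _) hM).mp hnb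
  have hab : ‖a + b‖ ≤ ρ + M := (norm_add_le a b).trans (add_le_add hna' hnb')
  have hab2 : ‖a + b‖ ^ 2 ≤ (ρ + M) ^ 2 :=
    (sq_le_sq₀ (norm_nonneg _) (by positivity)).mpr hab
  rw [Complex.sq_norm, Complex.normSq_apply] at hab2
  simp only [a, b, Complex.add_re, Complex.add_im] at hab2
  -- the key inequality
  set R := x ^ 2 + y ^ 2 with hR
  have hR0 : 0 ≤ R := by positivity
  have hV : (1 + κ * e1 + (x ^ 2 - y ^ 2 - 1)) * (1 + κ * e1 + (x ^ 2 - y ^ 2 - 1))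
      + (κ * e2 + 2 * x * y) * (κ * e2 + 2 * x * y)
      = R ^ 2 + κ ^ 2 * (e1 ^ 2 + e2 ^ 2) + 2 * κ * (e1 * (x ^ 2 - y ^ 2) + e2 * (2 * x * y)) := by
    rw [hR]; ring
  rw [hV, hunit] at hab2
  have hn' : 0 < n := hn
  have hne1 : n * e1 = u ^ 2 - v ^ 2 := by rw [he1]; field_simp
  have hne2 : n * e2 = 2 * u * v := by rw [he2]; field_simp
  have hT : 2 * (u * x + v * y) ^ 2 = n * R + n * (e1 * (x ^ 2 - y ^ 2) + e2 * (2 * x * y)) := by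
    have : n * (e1 * (x ^ 2 - y ^ 2) + e2 * (2 * x * y))
        = (n * e1) * (x ^ 2 - y ^ 2) + (n * e2) * (2 * x * y) := by ring
    rw [this, hne1, hne2, hR, hndef]
    ring
  have hAM : 2 * κ * R ≤ R ^ 2 + κ ^ 2 := by nlinarith [sq_nonneg (R - κ)]
  have hfinal : 4 * κ * (u * x + v * y) ^ 2 ≤ n * (ρ + M) ^ 2 := by
    have : 4 * κ * (u * x + v * y) ^ 2 = n * (2 * κ * R + 2 * κ * (e1 * (x ^ 2 - y ^ 2) + e2 * (2 * x * y))) := by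
      have : 4 * κ * (u * x + v * y) ^ 2 = 2 * κ * (2 * (u * x + v * y) ^ 2) := by ring
      rw [this, hT]; ring
    rw [this]
    apply mul_le_mul_of_nonneg_left _ hn'.le
    linarith
  rw [div_mul_eq_mul_div, le_div_iff₀ (by positivity)]
  linarith


/-! ### Noncommutative expansions -/

section Algebra

variable {R : Type*} [Ring R] [Algebra ℂ R]

lemma pow2_dir (X Y : R) (u v : ℂ) :
    (u • X + v • Y) ^ 2 = (u ^ 2) • X ^ 2 + (u * v) • (X * Y + Y * X) + (v ^ 2) • Y ^ 2 := by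
  simp only [pow_two, add_mul, mul_add, smul_mul_assoc, mul_smul_comm, smul_add, smul_smul]
  module

/-- Sum of the words with three `X` and one `Y`. -/
def W31 (X Y : R) : R := X * X * X * Y + X * X * Y * X + X * Y * X * X + Y * X * X * X
/-- Sum of the words with two `X` and two `Y`. -/
def W22 (X Y : R) : R := X * X * Y * Y + X * Y * X * Y + X * Y * Y * X + Y * X * X * Y
  + Y * X * Y * X + Y * Y * X * X
/-- Sum of the words with one `X` and three `Y`. -/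
def W13 (X Y : R) : R := X * Y * Y * Y + Y * X * Y * Y + Y * Y * X * Y + Y * Y * Y * X

lemma pow4_dir (X Y : R) (u v : ℂ) :
    (u • X + v • Y) ^ 4 = (u ^ 4) • (X * X * X * X) + (u ^ 3 * v) • W31 X Y
      + (u ^ 2 * v ^ 2) • W22 X Y + (u * v ^ 3) • W13 X Y + (v ^ 4) • (Y * Y * Y * Y) := by
  simp only [W31, W22, W13, pow_succ, pow_zero, one_mul, add_mul, mul_add, smul_mul_assoc,
    mul_smul_comm, smul_add, smul_smul]
  module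

/-- General linear combination of the nine basic elements. -/
def coefOp (X Y : R) (c40 c31 c22 c13 c04 c20 c11 c02 c00 : ℂ) : R :=
  c40 • (X * X * X * X) + c31 • W31 X Y + c22 • W22 X Y + c13 • W13 X Y + c04 • (Y * Y * Y * Y)
    + c20 • (X * X) + c11 • (X * Y + Y * X) + c02 • (Y * Y) + c00 • (1 : R)

/-- The value of a profile on the direction of an entry. -/
noncomputable def phiEl (X Y : R) (e : Entry) : R :=
  ((e.a1 : ℂ) + Complex.I * (e.a2 : ℂ)) • ((e.u : ℂ) • X + (e.v : ℂ) • Y) ^ 4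
    + ((e.b1 : ℂ) + Complex.I * (e.b2 : ℂ)) • ((e.u : ℂ) • X + (e.v : ℂ) • Y) ^ 2
    + ((e.c1 : ℂ) + Complex.I * (e.c2 : ℂ)) • (1 : R)

lemma sum_phiEl (X Y : R) (L : List Entry) :
    (L.map (phiEl X Y)).sum = coefOp X Y
      ((sumBy L (fun e => e.a1 * e.u ^ 4) : ℂ) + Complex.I * (sumBy L (fun e => e.a2 * e.u ^ 4) : ℂ))
      ((sumBy L (fun e => e.a1 * (e.u ^ 3 * e.v)) : ℂ)
        + Complex.I * (sumBy L (fun e => e.a2 * (e.u ^ 3 * e.v)) : ℂ))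
      ((sumBy L (fun e => e.a1 * (e.u ^ 2 * e.v ^ 2)) : ℂ)
        + Complex.I * (sumBy L (fun e => e.a2 * (e.u ^ 2 * e.v ^ 2)) : ℂ))
      ((sumBy L (fun e => e.a1 * (e.u * e.v ^ 3)) : ℂ)
        + Complex.I * (sumBy L (fun e => e.a2 * (e.u * e.v ^ 3)) : ℂ))
      ((sumBy L (fun e => e.a1 * e.v ^ 4) : ℂ) + Complex.I * (sumBy L (fun e => e.a2 * e.v ^ 4) : ℂ))
      ((sumBy L (fun e => e.b1 * e.u ^ 2) : ℂ) + Complex.I * (sumBy L (fun e => e.b2 * e.u ^ 2) : ℂ))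
      ((sumBy L (fun e => e.b1 * (e.u * e.v)) : ℂ)
        + Complex.I * (sumBy L (fun e => e.b2 * (e.u * e.v)) : ℂ))
      ((sumBy L (fun e => e.b1 * e.v ^ 2) : ℂ) + Complex.I * (sumBy L (fun e => e.b2 * e.v ^ 2) : ℂ))
      ((sumBy L (fun e => e.c1) : ℂ) + Complex.I * (sumBy L (fun e => e.c2) : ℂ)) := by
  induction L with
  | nil =>
    simp [sumBy, coefOp]
  | cons e L ih =>
    simp only [List.map_cons, List.sum_cons, ih]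
    simp only [sumBy, List.map_cons, List.sum_cons]
    simp only [phiEl, pow4_dir, pow2_dir, coefOp]
    push_cast
    simp only [pow_two, ← mul_assoc]
    module

end Algebra

/-! ### Soundness -/

section Sound

variable {H : Type*} [NormedAddCommGroup H] [InnerProductSpace ℂ H] [CompleteSpace H]

lemma Entry.profile_bound (e : Entry) (E : ℤ) (hE : 0 < E) (hl : 0 < e.l) (hs : 0 ≤ e.s)
    (hP : 0 < e.P) (hb : bernOK (e.q0 E) (e.q1 E) (e.q2 E) (e.q3 E) (e.q4) e.P = true)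
    (T : ℝ) (hT0 : 0 ≤ T) (hT1 : T ≤ (e.l : ℝ) / E) :
    ‖((e.a1 : ℂ) + Complex.I * (e.a2 : ℂ)) * (T : ℂ) ^ 2
      + ((e.b1 : ℂ) + Complex.I * (e.b2 : ℂ)) * (T : ℂ)
      + ((e.c1 : ℂ) + Complex.I * (e.c2 : ℂ))‖ ≤ (e.s : ℝ) := by
  have hEr : (0 : ℝ) < E := by exact_mod_cast hE
  have hlr : (0 : ℝ) < e.l := by exact_mod_cast hl
  have hsr : (0 : ℝ) ≤ e.s := by exact_mod_cast hs
  set τ : ℝ := T * E / e.l with hτ
  have hτ0 : 0 ≤ τ := by positivity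
  have hτ1 : τ ≤ 1 := by
    rw [hτ, div_le_one hlr]
    rw [le_div_iff₀ hEr] at hT1
    exact hT1
  have key := bernOK_nonneg _ _ _ _ _ _ hP hb τ hτ0 hτ1
  set P1 : ℝ := (e.a1 : ℝ) * T ^ 2 + e.b1 * T + e.c1 with hP1
  set P2 : ℝ := (e.a2 : ℝ) * T ^ 2 + e.b2 * T + e.c2 with hP2
  have hid : ((e.q0 E : ℤ) : ℝ) + ((e.q1 E : ℤ) : ℝ) * τ + ((e.q2 E : ℤ) : ℝ) * τ ^ 2
      + ((e.q3 E : ℤ) : ℝ) * τ ^ 3 + ((e.q4 : ℤ) : ℝ) * τ ^ 4
      = (E : ℝ) ^ 4 * ((e.s : ℝ) ^ 2 - (P1 ^ 2 + P2 ^ 2)) := by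
    have hTτ : (e.l : ℝ) * τ = T * E := by
      rw [hτ]; field_simp
    have e1 : ((e.q0 E : ℤ) : ℝ) + ((e.q1 E : ℤ) : ℝ) * τ + ((e.q2 E : ℤ) : ℝ) * τ ^ 2
      + ((e.q3 E : ℤ) : ℝ) * τ ^ 3 + ((e.q4 : ℤ) : ℝ) * τ ^ 4
      = (e.s : ℝ) ^ 2 * E ^ 4
        - ((e.a1 : ℝ) * (e.l * τ) ^ 2 + e.b1 * (e.l * τ) * E + e.c1 * E ^ 2) ^ 2
        - ((e.a2 : ℝ) * (e.l * τ) ^ 2 + e.b2 * (e.l * τ) * E + e.c2 * E ^ 2) ^ 2 := by
      simp only [Entry.q0, Entry.q1, Entry.q2, Entry.q3, Entry.q4]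
      push_cast
      ring
    rw [e1, hTτ, hP1, hP2]
    ring
  rw [hid] at key
  have hE4 : (0 : ℝ) < (E : ℝ) ^ 4 := by positivity
  have key2 : 0 ≤ (e.s : ℝ) ^ 2 - (P1 ^ 2 + P2 ^ 2) := nonneg_of_mul_nonneg_right key hE4
  have hval : ((e.a1 : ℂ) + Complex.I * (e.a2 : ℂ)) * (T : ℂ) ^ 2
      + ((e.b1 : ℂ) + Complex.I * (e.b2 : ℂ)) * (T : ℂ)
      + ((e.c1 : ℂ) + Complex.I * (e.c2 : ℂ)) = ⟨P1, P2⟩ := by
    apply Complex.ext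
    · simp [hP1, pow_two]
    · simp [hP2, pow_two]
  rw [hval]
  have hn : ‖(⟨P1, P2⟩ : ℂ)‖ ^ 2 ≤ (e.s : ℝ) ^ 2 := by
    rw [Complex.sq_norm, Complex.normSq_apply]
    nlinarith
  exact (sq_le_sq₀ (norm_nonneg _) hsr).mp hn

/-- The operator of an entry. -/
noncomputable def phiOp (A : H →L[ℂ] H) (e : Entry) : H →L[ℂ] H :=
  phiEl (reOp A) (imOp A) e

lemma Entry.norm_phiOp_le (e : Entry) (E m : ℤ) (hE : 0 < E) (hm : 0 ≤ m)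
    (hok : e.ok E m = true) (A : H →L[ℂ] H)
    (hA : ∀ x : H, ‖x‖ = 1 → ‖(inner ℂ x (A x)) ^ 2 - 1‖ ≤ (m : ℝ) / E) :
    ‖phiOp A e‖ ≤ (e.s : ℝ) := by
  simp only [Entry.ok, Bool.and_eq_true, decide_eq_true_eq] at hok
  obtain ⟨⟨⟨⟨⟨⟨⟨⟨⟨⟨hn, hk⟩, hK⟩, hr⟩, hRR⟩, hl⟩, hs⟩, hP⟩, hρ⟩, hsupp⟩, hb⟩ := hok
  have hEr : (0 : ℝ) < E := by exact_mod_cast hE
  have hmr : (0 : ℝ) ≤ m := by exact_mod_cast hm
  have hlr : (0 : ℝ) < e.l := by exact_mod_cast hl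
  have hsr : (0 : ℝ) ≤ e.s := by exact_mod_cast hs
  have hkr : (0 : ℝ) < e.k := by exact_mod_cast hk
  have hKr : (0 : ℝ) < e.K := by exact_mod_cast hK
  have hrr : (0 : ℝ) ≤ e.r := by exact_mod_cast hr
  have hRr : (0 : ℝ) < e.R := by exact_mod_cast hRR
  have hnr : (0 : ℝ) < (e.u : ℝ) ^ 2 + (e.v : ℝ) ^ 2 := by exact_mod_cast hn
  have hρr : (e.R : ℝ) ^ 2 * (((e.u : ℝ) ^ 2 + (e.v : ℝ) ^ 2) * ((e.K : ℝ) ^ 2 + (e.k : ℝ) ^ 2)
      + 2 * e.k * e.K * ((e.u : ℝ) ^ 2 - (e.v : ℝ) ^ 2))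
      ≤ (e.r : ℝ) ^ 2 * (((e.u : ℝ) ^ 2 + (e.v : ℝ) ^ 2) * (e.K : ℝ) ^ 2) := by
    exact_mod_cast hρ
  have hsuppr : ((e.u : ℝ) ^ 2 + (e.v : ℝ) ^ 2) * e.K * ((e.r : ℝ) * E + m * e.R) ^ 2
      ≤ (e.l : ℝ) * (4 * e.k * (e.R : ℝ) ^ 2 * E) := by
    exact_mod_cast hsupp
  set n : ℝ := (e.u : ℝ) ^ 2 + (e.v : ℝ) ^ 2 with hndef
  set κ : ℝ := (e.k : ℝ) / e.K with hκ
  set ρ : ℝ := (e.r : ℝ) / e.R with hρdef
  set M : ℝ := (m : ℝ) / E with hMdef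
  have hκpos : 0 < κ := by positivity
  have hρnn : 0 ≤ ρ := by positivity
  have hMnn : 0 ≤ M := by positivity
  have hρ2 : 1 + κ ^ 2 + 2 * κ * ((e.u : ℝ) ^ 2 - (e.v : ℝ) ^ 2) / n ≤ ρ ^ 2 := by
    rw [hκ, hρdef, div_pow, div_pow]
    have h1 : 1 + (e.k : ℝ) ^ 2 / (e.K : ℝ) ^ 2
        + 2 * ((e.k : ℝ) / e.K) * ((e.u : ℝ) ^ 2 - (e.v : ℝ) ^ 2) / n
        = (n * ((e.K : ℝ) ^ 2 + (e.k : ℝ) ^ 2) + 2 * e.k * e.K * ((e.u : ℝ) ^ 2 - (e.v : ℝ) ^ 2))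
          / (n * (e.K : ℝ) ^ 2) := by
      field_simp
    rw [h1, div_le_div_iff₀ (by positivity) (by positivity)]
    nlinarith
  have hLbound : n / (4 * κ) * (ρ + M) ^ 2 ≤ (e.l : ℝ) / E := by
    have h1 : n / (4 * κ) * (ρ + M) ^ 2
        = (n * e.K * ((e.r : ℝ) * E + m * e.R) ^ 2) / (4 * e.k * (e.R : ℝ) ^ 2 * (E : ℝ) ^ 2) := by
      rw [hκ, hρdef, hMdef]
      field_simp
    rw [h1, div_le_div_iff₀ (by positivity) hEr]
    have : (e.l : ℝ) * (4 * e.k * (e.R : ℝ) ^ 2 * (E : ℝ) ^ 2)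
        = ((e.l : ℝ) * (4 * e.k * (e.R : ℝ) ^ 2 * E)) * E := by ring
    rw [this]
    exact mul_le_mul_of_nonneg_right hsuppr hEr.le
  -- the operator
  set T := dirOp A (e.u : ℝ) (e.v : ℝ) with hTdef
  have hTsa : IsSelfAdjoint T := isSelfAdjoint_dirOp A _ _
  set r0 : ℝ := Real.sqrt ((e.l : ℝ) / E) with hr0
  have hr0nn : 0 ≤ r0 := Real.sqrt_nonneg _
  have hform : ∀ x : H, ‖x‖ = 1 → |(inner ℂ x (T x)).re| ≤ r0 := by
    intro x hx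
    rw [hTdef, dirOp_form]
    apply Real.abs_le_sqrt
    set z : ℂ := inner ℂ x (A x) with hz
    have hzM := hA x hx
    have hsq : (z.re ^ 2 - z.im ^ 2 - 1) ^ 2 + (2 * z.re * z.im) ^ 2 ≤ M ^ 2 := by
      have h2 : ‖z ^ 2 - 1‖ ^ 2 ≤ M ^ 2 := by
        exact (sq_le_sq₀ (norm_nonneg _) hMnn).mpr hzM
      rw [Complex.sq_norm, Complex.normSq_apply] at h2
      have hre : (z ^ 2 - 1).re = z.re ^ 2 - z.im ^ 2 - 1 := by
        simp [pow_two]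
      have him : (z ^ 2 - 1).im = 2 * z.re * z.im := by
        simp [pow_two]; ring
      rw [hre, him] at h2
      nlinarith
    exact (support_bound _ _ κ ρ M z.re z.im hnr hκpos hρnn hMnn hρ2 hsq).trans hLbound
  -- the polynomial
  let q : ℂ[X] := C ((e.a1 : ℂ) + Complex.I * (e.a2 : ℂ)) * X ^ 4
    + C ((e.b1 : ℂ) + Complex.I * (e.b2 : ℂ)) * X ^ 2
    + C ((e.c1 : ℂ) + Complex.I * (e.c2 : ℂ))
  have hgen : ∀ (a b c : ℂ) (S : H →L[ℂ] H),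
      aeval S (C a * X ^ 4 + C b * X ^ 2 + C c) = a • S ^ 4 + b • S ^ 2 + c • (1 : H →L[ℂ] H) := by
    intro a b c S
    simp only [map_add, map_mul, aeval_C, map_pow, aeval_X, Algebra.algebraMap_eq_smul_one,
      smul_mul_assoc, one_mul]
  have hphi : phiOp A e = aeval T q := by
    simp only [phiOp, phiEl, q]
    rw [hgen]
    have : (e.u : ℂ) • reOp A + (e.v : ℂ) • imOp A = T := by
      rw [hTdef]; unfold dirOp; push_cast; rfl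
    rw [this]
  rw [hphi]
  refine norm_aeval_le_of_form T hTsa r0 hr0nn hform q _ hsr ?_
  intro t ht
  have hT0 : 0 ≤ t ^ 2 := sq_nonneg t
  have hT1 : t ^ 2 ≤ (e.l : ℝ) / E := by
    have : t ^ 2 ≤ r0 ^ 2 := sq_le_sq' (by linarith [(abs_le.mp ht).1]) (abs_le.mp ht).2
    rwa [hr0, Real.sq_sqrt (by positivity)] at this
  have := Entry.profile_bound e E hE hl hs hP hb (t ^ 2) hT0 hT1
  have hev : q.eval (t : ℂ) = ((e.a1 : ℂ) + Complex.I * (e.a2 : ℂ)) * (((t ^ 2 : ℝ)) : ℂ) ^ 2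
      + ((e.b1 : ℂ) + Complex.I * (e.b2 : ℂ)) * ((t ^ 2 : ℝ) : ℂ)
      + ((e.c1 : ℂ) + Complex.I * (e.c2 : ℂ)) := by
    simp only [q, eval_add, eval_mul, eval_C, eval_pow, eval_X]
    push_cast
    ring
  rw [hev]
  exact this

/-- The norm of a sum over a list is at most the sum of the bounds. -/
lemma norm_sum_phiOp_le (L : List Entry) (A : H →L[ℂ] H) (h : ∀ e ∈ L, ‖phiOp A e‖ ≤ (e.s : ℝ)) :
    ‖(L.map (phiOp A)).sum‖ ≤ ((sumBy L (fun e => e.s) : ℤ) : ℝ) := by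
  induction L with
  | nil => simp [sumBy]
  | cons e L ih =>
    simp only [List.map_cons, List.sum_cons, sumBy]
    push_cast
    refine (norm_add_le _ _).trans (add_le_add (h e (by simp)) ?_)
    have := ih (fun e' he' => h e' (by simp [he']))
    simpa [sumBy] using this

/-- Soundness of the cell check. -/
theorem Cell.sound (C : Cell) (hC : C.ok = true) (A : H →L[ℂ] H) (M : ℝ)
    (hlo : (C.lo : ℝ) / C.E ≤ M) (hhi : M ≤ (C.hi : ℝ) / C.E)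
    (hA : ∀ x : H, ‖x‖ = 1 → ‖(inner ℂ x (A x)) ^ 2 - 1‖ ≤ M) :
    ‖A ^ 2 - 1‖ ≤ 2 * M := by
  simp only [Cell.ok, Bool.and_eq_true, decide_eq_true_eq, List.all_eq_true] at hC
  obtain ⟨⟨⟨⟨⟨⟨⟨⟨⟨⟨⟨⟨⟨⟨⟨⟨⟨⟨⟨⟨⟨⟨⟨hD, hE⟩, hlo0⟩, hhi0⟩, hents⟩, hsum⟩, h1⟩, h2⟩, h3⟩, h4⟩, h5⟩, h6⟩, h7⟩, h8⟩, h9⟩, h10⟩, h11⟩, h12⟩, h13⟩, h14⟩, h15⟩, h16⟩, h17⟩, h18⟩ := hC
  have hDr : (0 : ℝ) < C.D := by exact_mod_cast hD
  have hEr : (0 : ℝ) < C.E := by exact_mod_cast hE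
  have hbound : ∀ e ∈ C.ents, ‖phiOp A e‖ ≤ (e.s : ℝ) := fun e he =>
    Entry.norm_phiOp_le e C.E C.hi hE hhi0 (hents e he) A (fun x hx => (hA x hx).trans hhi)
  have hnorm := norm_sum_phiOp_le C.ents A hbound
  have hid : (C.ents.map (phiOp A)).sum = (C.D : ℂ) • (A ^ 2 - 1) := by
    have hX := reOp_add_imOp A
    have hsumphi : (C.ents.map (phiOp A)) = (C.ents.map (phiEl (reOp A) (imOp A))) := rfl
    rw [hsumphi, sum_phiEl]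
    rw [h1, h2, h3, h4, h5, h6, h7, h8, h9, h10, h11, h12, h13, h14, h15, h16, h17, h18]
    have hA2 : A ^ 2 = reOp A * reOp A + Complex.I • (reOp A * imOp A + imOp A * reOp A)
        - imOp A * imOp A := by
      conv_lhs => rw [← hX]
      rw [pow_two]
      simp only [add_mul, mul_add, smul_mul_assoc, mul_smul_comm, smul_add, smul_smul,
        Complex.I_mul_I]
      module
    rw [hA2]
    simp only [coefOp]
    push_cast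
    simp only [smul_add, smul_smul, mul_zero, add_zero, zero_smul, zero_add, sub_eq_add_neg,
      neg_smul, smul_neg]
    module
  rw [hid, norm_smul, Complex.norm_intCast, abs_of_pos hDr] at hnorm
  have hsumr : (C.E : ℝ) * ((sumBy C.ents (fun e => e.s) : ℤ) : ℝ) ≤ 2 * C.lo * C.D := by
    exact_mod_cast hsum
  have h3' : (C.D : ℝ) * ‖A ^ 2 - 1‖ ≤ ((sumBy C.ents (fun e => e.s) : ℤ) : ℝ) := hnorm
  have h4' : (C.E : ℝ) * ((C.D : ℝ) * ‖A ^ 2 - 1‖) ≤ 2 * C.lo * C.D :=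
    (mul_le_mul_of_nonneg_left h3' hEr.le).trans hsumr
  have h5' : (C.E : ℝ) * ‖A ^ 2 - 1‖ ≤ 2 * C.lo := by
    have : (C.D : ℝ) * ((C.E : ℝ) * ‖A ^ 2 - 1‖) ≤ (C.D : ℝ) * (2 * C.lo) := by
      nlinarith
    exact le_of_mul_le_mul_left this hDr
  have h6' : ‖A ^ 2 - 1‖ ≤ 2 * ((C.lo : ℝ) / C.E) := by
    rw [mul_div_assoc', le_div_iff₀ hEr]
    linarith
  linarith

/-- The cells of a list cover the range from `lo` up to `target`, ordered increasingly. -/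
def coversFrom (E : ℤ) : ℤ → ℤ → List Cell → Bool
  | lo, target, [] => decide (target ≤ lo)
  | lo, target, c :: t => decide (c.E = E) && decide (c.lo ≤ lo) && coversFrom E c.hi target t

lemma coversFrom_sound (E : ℤ) (hE : 0 < E) (target : ℤ) (L : List Cell) :
    ∀ lo : ℤ, coversFrom E lo target L = true → ∀ M : ℝ, (lo : ℝ) / E ≤ M → M < (target : ℝ) / E →
      ∃ C ∈ L, C.E = E ∧ (C.lo : ℝ) / C.E ≤ M ∧ M ≤ (C.hi : ℝ) / C.E := by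
  have hEr : (0 : ℝ) < E := by exact_mod_cast hE
  induction L with
  | nil =>
    intro lo h M h1 h2
    simp only [coversFrom, decide_eq_true_eq] at h
    have h3 : (target : ℝ) ≤ lo := by exact_mod_cast h
    have h4 : (target : ℝ) / E ≤ (lo : ℝ) / E := div_le_div_of_nonneg_right h3 hEr.le
    linarith
  | cons c t ih =>
    intro lo h M h1 h2
    simp only [coversFrom, Bool.and_eq_true, decide_eq_true_eq] at h
    obtain ⟨⟨hcE, hclo⟩, hrest⟩ := h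
    by_cases hM : M ≤ (c.hi : ℝ) / E
    · refine ⟨c, by simp, hcE, ?_, ?_⟩
      · rw [hcE]
        have h3 : (c.lo : ℝ) ≤ lo := by exact_mod_cast hclo
        have h4 : (c.lo : ℝ) / E ≤ (lo : ℝ) / E := div_le_div_of_nonneg_right h3 hEr.le
        linarith
      · rw [hcE]; exact hM
    · push Not at hM
      obtain ⟨C, hC, h5⟩ := ih c.hi hrest M hM.le h2
      exact ⟨C, by simp [hC], h5⟩

end Sound

end Vale.Agent.helper3.Ridge
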