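import Vale.Agent.helper3.HullCheck

/-!
# Operators whose numerical range lies in one lobe of a lemniscate `|z ^ 2 - 1| ≤ 2 c s`
-/

open Polynomial ContinuousLinearMap

namespace Vale.Agent.helper3.Ridge

/-- The right lobe of `|z ^ 2 - 1| ≤ 2 c s`, `c ^ 2 + s ^ 2 = 1`, lies in the disc of centre `c` and
radius `s`, and in the strip `|y| ≤ c s`. -/
lemma lobe_disc (c s x y : ℝ) (hc : 0 < c) (hcs : c ^ 2 + s ^ 2 = 1) (hx : 0 < x)
    (h : (x ^ 2 - y ^ 2 - 1) ^ 2 + (2 * x * y) ^ 2 ≤ (2 * c * s) ^ 2) :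
    (x - c) ^ 2 + y ^ 2 ≤ s ^ 2 ∧ y ^ 2 ≤ (c * s) ^ 2 := by
  constructor
  · have hkey : (2 * c * x) ^ 2 - (x ^ 2 + y ^ 2 + c ^ 2 - s ^ 2) ^ 2
        = ((2 * c * s) ^ 2 - ((x ^ 2 - y ^ 2 - 1) ^ 2 + (2 * x * y) ^ 2)) + 4 * s ^ 2 * y ^ 2 := by
      linear_combination (4 * x ^ 2 - 2 * (x ^ 2 + y ^ 2) - 2 - (c ^ 2 + s ^ 2 - 1)) * hcs
    have h1 : (x ^ 2 + y ^ 2 + c ^ 2 - s ^ 2) ^ 2 ≤ (2 * c * x) ^ 2 := by
      nlinarith [mul_nonneg (sq_nonneg s) (sq_nonneg y)]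
    have hpos : 0 ≤ 2 * c * x := by positivity
    have h2 : x ^ 2 + y ^ 2 + c ^ 2 - s ^ 2 ≤ 2 * c * x := by
      exact le_of_abs_le ((sq_le_sq₀ (abs_nonneg _) hpos).mp (by rwa [sq_abs]))
    nlinarith
  · have : (x ^ 2 - y ^ 2 - 1) ^ 2 + (2 * x * y) ^ 2 = (x ^ 2 + y ^ 2 - 1) ^ 2 + 4 * y ^ 2 := by ring
    rw [this] at h
    nlinarith [sq_nonneg (x ^ 2 + y ^ 2 - 1)]

section Algebra

variable {R : Type*} [Ring R] [Algebra ℂ R]

/-- The ridge identity used on a lobe. -/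
lemma lobe_id (E Y : R) (c s q : ℂ) :
    (((c • (1 : R) + E + Complex.I • Y) ^ 2 - 1) : R)
      = (2 * c - 16 / 25 * q) • E
        + ((-25 / 16 : ℂ) • (Y * Y) + (Complex.I * (2 * c - 9 / 25 * q)) • Y
            + (c ^ 2 - 1 + 25 / 16 * s ^ 2) • (1 : R))
        + ((25 / 32 + 25 / 24 * Complex.I) • (((4 / 5 : ℂ) • E + (3 / 5 : ℂ) • Y) * ((4 / 5 : ℂ) • E + (3 / 5 : ℂ) • Y))
            + (2 * q / 5 + 3 * q / 10 * Complex.I) • ((4 / 5 : ℂ) • E + (3 / 5 : ℂ) • Y)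
            + (-(25 / 32 + 25 / 24 * Complex.I) * s ^ 2) • (1 : R))
        + ((25 / 32 - 25 / 24 * Complex.I) • (((4 / 5 : ℂ) • E - (3 / 5 : ℂ) • Y) * ((4 / 5 : ℂ) • E - (3 / 5 : ℂ) • Y))
            + (2 * q / 5 - 3 * q / 10 * Complex.I) • ((4 / 5 : ℂ) • E - (3 / 5 : ℂ) • Y)
            + (-(25 / 32 - 25 / 24 * Complex.I) * s ^ 2) • (1 : R)) := by
  have hI : Complex.I * Complex.I = -1 := Complex.I_mul_I
  simp only [pow_two, add_mul, mul_add, sub_mul, mul_sub, smul_mul_assoc, mul_smul_comm, one_mul,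
    mul_one, smul_add, smul_sub, smul_smul, hI]
  module

end Algebra

variable {H : Type*} [NormedAddCommGroup H] [InnerProductSpace ℂ H] [CompleteSpace H]

lemma isSelfAdjoint_realsmul_one (c : ℝ) : IsSelfAdjoint ((c : ℂ) • (1 : H →L[ℂ] H)) := by
  rw [IsSelfAdjoint, star_smul, star_one, Complex.star_def, Complex.conj_ofReal]

lemma isSelfAdjoint_comb (S T : H →L[ℂ] H) (hS : IsSelfAdjoint S) (hT : IsSelfAdjoint T)
    (a b : ℝ) : IsSelfAdjoint ((a : ℂ) • S + (b : ℂ) • T) := by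
  have h1 := (ContinuousLinearMap.isSelfAdjoint_iff' (A := S)).mp hS
  have h2 := (ContinuousLinearMap.isSelfAdjoint_iff' (A := T)).mp hT
  rw [ContinuousLinearMap.isSelfAdjoint_iff', map_add, LinearIsometryEquiv.map_smulₛₗ,
    LinearIsometryEquiv.map_smulₛₗ, h1, h2, Complex.conj_ofReal, Complex.conj_ofReal]

lemma aeval_quad (T : H →L[ℂ] H) (a b d : ℂ) :
    aeval T (C a * X ^ 2 + C b * X + C d) = a • (T * T) + b • T + d • (1 : H →L[ℂ] H) := by
  simp only [map_add, map_mul, aeval_C, map_pow, aeval_X, Algebra.algebraMap_eq_smul_one,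
    smul_mul_assoc, one_mul, pow_two]

/-- The general bound on a lobe, with free parameters `q`, `SY`, `SK`. -/
theorem lobe_bound (A : H →L[ℂ] H) (c s q SY SK : ℝ) (hc : 0 < c) (hs : 0 ≤ s)
    (hcs : c ^ 2 + s ^ 2 = 1)
    (hA : ∀ x : H, ‖x‖ = 1 → 0 < (inner ℂ x (A x)).re ∧ ‖(inner ℂ x (A x)) ^ 2 - 1‖ ≤ 2 * c * s)
    (hSY : 0 ≤ SY) (hSK : 0 ≤ SK)
    (hY : ∀ t : ℝ, |t| ≤ c * s →
      (c ^ 2 - 1 + 25 / 16 * s ^ 2 - 25 / 16 * t ^ 2) ^ 2 + ((2 * c - 9 / 25 * q) * t) ^ 2 ≤ SY ^ 2)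
    (hK : ∀ k : ℝ, |k| ≤ s →
      (25 / 32 * (k ^ 2 - s ^ 2) + 2 * q / 5 * k) ^ 2
        + (25 / 24 * (k ^ 2 - s ^ 2) + 3 * q / 10 * k) ^ 2 ≤ SK ^ 2) :
    ‖A ^ 2 - 1‖ ≤ |2 * c - 16 / 25 * q| * s + SY + 2 * SK := by
  -- form facts
  have hform : ∀ x : H, ‖x‖ = 1 → ((inner ℂ x (A x)).re - c) ^ 2 + (inner ℂ x (A x)).im ^ 2 ≤ s ^ 2
      ∧ (inner ℂ x (A x)).im ^ 2 ≤ (c * s) ^ 2 := by
    intro x hx
    obtain ⟨h1, h2⟩ := hA x hx
    set z : ℂ := inner ℂ x (A x)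
    refine lobe_disc c s z.re z.im hc hcs h1 ?_
    have h3 : ‖z ^ 2 - 1‖ ^ 2 ≤ (2 * c * s) ^ 2 :=
      (sq_le_sq₀ (norm_nonneg _) (by positivity)).mpr h2
    rw [Complex.sq_norm, Complex.normSq_apply] at h3
    have hre : (z ^ 2 - 1).re = z.re ^ 2 - z.im ^ 2 - 1 := by simp [pow_two]
    have him : (z ^ 2 - 1).im = 2 * z.re * z.im := by simp [pow_two]; ring
    rw [hre, him] at h3
    nlinarith
  -- the operators
  set RA := reOp A with hX
  set IA := imOp A with hY'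
  set E : H →L[ℂ] H := RA - (c : ℂ) • (1 : H →L[ℂ] H) with hE
  have hXsa : IsSelfAdjoint RA := isSelfAdjoint_reOp A
  have hYsa : IsSelfAdjoint IA := isSelfAdjoint_imOp A
  have hEsa : IsSelfAdjoint E := hXsa.sub (isSelfAdjoint_realsmul_one c)
  have hEform : ∀ x : H, ‖x‖ = 1 → (inner ℂ x (E x)).re = (inner ℂ x (A x)).re - c := by
    intro x hx
    simp only [hE, sub_apply, smul_apply, inner_sub_right, inner_smul_right, hX,
      inner_reOp]
    simp [hx]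
  have hYform : ∀ x : H, (inner ℂ x (IA x)).re = (inner ℂ x (A x)).im := by
    intro x
    rw [hY', inner_imOp, Complex.ofReal_re]
  -- bound on E
  have hEn : ‖E‖ ≤ s := by
    refine opNorm_le_of_form E hEsa s hs ?_
    intro x hx
    rw [hEform x hx]
    have := (hform x hx).1
    exact abs_le_of_sq_le_sq' (by nlinarith [sq_nonneg (inner ℂ x (A x)).im]) hs |> abs_le.mpr
  -- bound on the Y term
  let qY : ℂ[X] := C (-25 / 16 : ℂ) * X ^ 2 + C (Complex.I * (2 * (c : ℂ) - 9 / 25 * (q : ℂ))) * X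
    + C ((c : ℂ) ^ 2 - 1 + 25 / 16 * (s : ℂ) ^ 2)
  have hTY : ‖aeval IA qY‖ ≤ SY := by
    refine norm_aeval_le_of_form IA hYsa (c * s) (by positivity) ?_ qY SY hSY ?_
    · intro x hx
      rw [hYform]
      exact abs_le_of_sq_le_sq' (hform x hx).2 (by positivity) |> abs_le.mpr
    · intro t ht
      have hval : qY.eval (t : ℂ) = ⟨c ^ 2 - 1 + 25 / 16 * s ^ 2 - 25 / 16 * t ^ 2,
          (2 * c - 9 / 25 * q) * t⟩ := by
        simp only [qY, eval_add, eval_mul, eval_C, eval_pow, eval_X]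
        apply Complex.ext
        · simp [pow_two]
          ring
        · simp [pow_two]
      rw [hval]
      have := hY t ht
      refine (sq_le_sq₀ (norm_nonneg _) hSY).mp ?_
      rw [Complex.sq_norm, Complex.normSq_apply]
      nlinarith
  -- the K operators
  set Kp : H →L[ℂ] H := ((4 / 5 : ℝ) : ℂ) • E + ((3 / 5 : ℝ) : ℂ) • IA with hKp
  set Km : H →L[ℂ] H := ((4 / 5 : ℝ) : ℂ) • E + ((-3 / 5 : ℝ) : ℂ) • IA with hKm
  have hKpsa : IsSelfAdjoint Kp := isSelfAdjoint_comb E IA hEsa hYsa _ _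
  have hKmsa : IsSelfAdjoint Km := isSelfAdjoint_comb E IA hEsa hYsa _ _
  have hKpform : ∀ x : H, ‖x‖ = 1 → |(inner ℂ x (Kp x)).re| ≤ s := by
    intro x hx
    have : (inner ℂ x (Kp x)).re = 4 / 5 * ((inner ℂ x (A x)).re - c)
        + 3 / 5 * (inner ℂ x (A x)).im := by
      simp only [hKp, add_apply, smul_apply, inner_add_right, inner_smul_right, Complex.add_re,
        Complex.re_ofReal_mul, hEform x hx, hYform]
    rw [this]
    have h0 := (hform x hx).1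
    refine abs_le_of_sq_le_sq' ?_ hs |> abs_le.mpr
    nlinarith [sq_nonneg (3 / 5 * ((inner ℂ x (A x)).re - c) - 4 / 5 * (inner ℂ x (A x)).im)]
  have hKmform : ∀ x : H, ‖x‖ = 1 → |(inner ℂ x (Km x)).re| ≤ s := by
    intro x hx
    have : (inner ℂ x (Km x)).re = 4 / 5 * ((inner ℂ x (A x)).re - c)
        + (-3 / 5) * (inner ℂ x (A x)).im := by
      simp only [hKm, add_apply, smul_apply, inner_add_right, inner_smul_right, Complex.add_re,
        Complex.re_ofReal_mul, hEform x hx, hYform]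
    rw [this]
    have h0 := (hform x hx).1
    refine abs_le_of_sq_le_sq' ?_ hs |> abs_le.mpr
    nlinarith [sq_nonneg (3 / 5 * ((inner ℂ x (A x)).re - c) + 4 / 5 * (inner ℂ x (A x)).im)]
  let qp : ℂ[X] := C (25 / 32 + 25 / 24 * Complex.I) * X ^ 2
    + C (2 * (q : ℂ) / 5 + 3 * (q : ℂ) / 10 * Complex.I) * X
    + C (-(25 / 32 + 25 / 24 * Complex.I) * (s : ℂ) ^ 2)
  let qm : ℂ[X] := C (25 / 32 - 25 / 24 * Complex.I) * X ^ 2
    + C (2 * (q : ℂ) / 5 - 3 * (q : ℂ) / 10 * Complex.I) * X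
    + C (-(25 / 32 - 25 / 24 * Complex.I) * (s : ℂ) ^ 2)
  have hTp : ‖aeval Kp qp‖ ≤ SK := by
    refine norm_aeval_le_of_form Kp hKpsa s hs hKpform qp SK hSK ?_
    intro k hk
    have hval : qp.eval (k : ℂ) = ⟨25 / 32 * (k ^ 2 - s ^ 2) + 2 * q / 5 * k,
        25 / 24 * (k ^ 2 - s ^ 2) + 3 * q / 10 * k⟩ := by
      simp only [qp, eval_add, eval_mul, eval_C, eval_pow, eval_X]
      apply Complex.ext
      · simp [pow_two]
        ring
      · simp [pow_two]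
        ring
    rw [hval]
    have := hK k hk
    refine (sq_le_sq₀ (norm_nonneg _) hSK).mp ?_
    rw [Complex.sq_norm, Complex.normSq_apply]
    nlinarith
  have hTm : ‖aeval Km qm‖ ≤ SK := by
    refine norm_aeval_le_of_form Km hKmsa s hs hKmform qm SK hSK ?_
    intro k hk
    have hval : qm.eval (k : ℂ) = ⟨25 / 32 * (k ^ 2 - s ^ 2) + 2 * q / 5 * k,
        -(25 / 24 * (k ^ 2 - s ^ 2) + 3 * q / 10 * k)⟩ := by
      simp only [qm, eval_add, eval_mul, eval_C, eval_pow, eval_X]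
      apply Complex.ext
      · simp [pow_two]
        ring
      · simp [pow_two]
        ring
    rw [hval]
    have := hK k hk
    refine (sq_le_sq₀ (norm_nonneg _) hSK).mp ?_
    rw [Complex.sq_norm, Complex.normSq_apply]
    nlinarith
  -- the identity
  have hAeq : A = ((c : ℂ) • (1 : H →L[ℂ] H) + E + Complex.I • IA) := by
    rw [hE, hX, hY']
    conv_lhs => rw [← reOp_add_imOp A]
    abel
  have hid := lobe_id E IA (c : ℂ) (s : ℂ) (q : ℂ)
  rw [← hAeq] at hid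
  have hT1 : aeval IA qY = (-25 / 16 : ℂ) • (IA * IA) + (Complex.I * (2 * (c : ℂ) - 9 / 25 * (q : ℂ))) • IA
      + ((c : ℂ) ^ 2 - 1 + 25 / 16 * (s : ℂ) ^ 2) • (1 : H →L[ℂ] H) := aeval_quad _ _ _ _
  have hT2 : aeval Kp qp = (25 / 32 + 25 / 24 * Complex.I) • (((4 / 5 : ℂ) • E + (3 / 5 : ℂ) • IA) * ((4 / 5 : ℂ) • E + (3 / 5 : ℂ) • IA))
      + (2 * (q : ℂ) / 5 + 3 * (q : ℂ) / 10 * Complex.I) • ((4 / 5 : ℂ) • E + (3 / 5 : ℂ) • IA)
      + (-(25 / 32 + 25 / 24 * Complex.I) * (s : ℂ) ^ 2) • (1 : H →L[ℂ] H) := by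
    have : Kp = (4 / 5 : ℂ) • E + (3 / 5 : ℂ) • IA := by
      rw [hKp]; push_cast; rfl
    rw [this]
    exact aeval_quad _ _ _ _
  have hT3 : aeval Km qm = (25 / 32 - 25 / 24 * Complex.I) • (((4 / 5 : ℂ) • E - (3 / 5 : ℂ) • IA) * ((4 / 5 : ℂ) • E - (3 / 5 : ℂ) • IA))
      + (2 * (q : ℂ) / 5 - 3 * (q : ℂ) / 10 * Complex.I) • ((4 / 5 : ℂ) • E - (3 / 5 : ℂ) • IA)
      + (-(25 / 32 - 25 / 24 * Complex.I) * (s : ℂ) ^ 2) • (1 : H →L[ℂ] H) := by
    have : Km = (4 / 5 : ℂ) • E - (3 / 5 : ℂ) • IA := by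
      rw [hKm]
      push_cast
      rw [sub_eq_add_neg, ← neg_smul]
      congr 2
      ring
    rw [this]
    exact aeval_quad _ _ _ _
  rw [← hT1, ← hT2, ← hT3] at hid
  rw [hid]
  have hE1 : ‖(2 * (c : ℂ) - 16 / 25 * (q : ℂ)) • E‖ ≤ |2 * c - 16 / 25 * q| * s := by
    rw [norm_smul]
    have : ‖(2 * (c : ℂ) - 16 / 25 * (q : ℂ))‖ = |2 * c - 16 / 25 * q| := by
      have : (2 * (c : ℂ) - 16 / 25 * (q : ℂ)) = ((2 * c - 16 / 25 * q : ℝ) : ℂ) := by push_cast; ring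
      rw [this, Complex.norm_real, Real.norm_eq_abs]
    rw [this]
    exact mul_le_mul_of_nonneg_left hEn (abs_nonneg _)
  calc _ ≤ ‖(2 * (c : ℂ) - 16 / 25 * (q : ℂ)) • E‖ + ‖aeval IA qY‖ + ‖aeval Kp qp‖ + ‖aeval Km qm‖ :=
        norm_add₄_le
    _ ≤ _ := by linarith


lemma convex_quad_le (a b d T U S : ℝ) (hT0 : 0 ≤ T) (hTU : T ≤ U) (h0 : d ^ 2 ≤ S)
    (hU : (d - a * U) ^ 2 + b * U ≤ S) : (d - a * T) ^ 2 + b * T ≤ S := by
  rcases (hT0.trans hTU).eq_or_lt with hU0 | hU0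
  · have : T = 0 := le_antisymm (by linarith) hT0
    rw [this]
    simpa using h0
  · have key : U * (S - ((d - a * T) ^ 2 + b * T))
        = (U - T) * (S - d ^ 2) + T * (S - ((d - a * U) ^ 2 + b * U))
          + a ^ 2 * T * (U - T) * U := by ring
    have h1 : 0 ≤ (U - T) * (S - d ^ 2) := mul_nonneg (by linarith) (by linarith)
    have h2 : 0 ≤ T * (S - ((d - a * U) ^ 2 + b * U)) := mul_nonneg hT0 (by linarith)
    have h3 : 0 ≤ a ^ 2 * T * (U - T) * U := by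
      have : 0 ≤ U - T := by linarith
      positivity
    have h4 : 0 ≤ U * (S - ((d - a * T) ^ 2 + b * T)) := by rw [key]; linarith
    have := nonneg_of_mul_nonneg_right h4 hU0
    linarith

/-- The closed form bound: on the lobe with `8 s ≤ 5 c` one has `‖A ^ 2 - 1‖ ≤ 4 c s`. -/
theorem lobe_closed (A : H →L[ℂ] H) (c s : ℝ) (hc : 0 < c) (hs : 0 ≤ s)
    (hcs : c ^ 2 + s ^ 2 = 1) (h85 : 8 * s ≤ 5 * c)
    (hA : ∀ x : H, ‖x‖ = 1 → 0 < (inner ℂ x (A x)).re ∧ ‖(inner ℂ x (A x)) ^ 2 - 1‖ ≤ 2 * c * s) :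
    ‖A ^ 2 - 1‖ ≤ 2 * (2 * c * s) := by
  have hs2 : s ^ 2 ≤ 25 / 89 := by nlinarith
  have hs1 : s ≤ 53 / 100 := by
    by_contra hcon
    push Not at hcon
    nlinarith
  have hc1 : c ≤ 1 := by nlinarith [sq_nonneg s]
  have hκ0 : 0 ≤ 2 * c - 9 / 5 * s := by linarith
  have hbound := lobe_bound A c s (5 * s) ((2 * c - 9 / 5 * s) * s) (5 / 2 * s ^ 2) hc hs hcs hA
    (by positivity) (by positivity) ?_ ?_
  · have h1 : 0 ≤ 2 * c - 16 / 25 * (5 * s) := by linarith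
    rw [abs_of_nonneg h1] at hbound
    have : (2 * c - 16 / 25 * (5 * s)) * s + (2 * c - 9 / 5 * s) * s + 2 * (5 / 2 * s ^ 2)
        = 2 * (2 * c * s) := by ring
    linarith
  · -- the Y term
    intro t ht
    have hκ : 2 * c - 9 / 25 * (5 * s) = 2 * c - 9 / 5 * s := by ring
    rw [hκ]
    set κ := 2 * c - 9 / 5 * s with hκdef
    have hd : c ^ 2 - 1 + 25 / 16 * s ^ 2 = 9 / 16 * s ^ 2 := by nlinarith
    rw [hd]
    have ht2 : t ^ 2 ≤ (c * s) ^ 2 := by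
      exact sq_le_sq' (by linarith [(abs_le.mp ht).1]) (abs_le.mp ht).2
    have h9 : 9 / 16 * s ≤ κ := by rw [hκdef]; nlinarith
    have hκ2 : 1 - 25 / 16 * s ^ 2 ≤ κ := by
      -- (1 + 9/5 s - 25/16 s^2) ≤ 2 c
      have hw : 0 ≤ 1 + 9 / 5 * s - 25 / 16 * s ^ 2 := by nlinarith
      have h4 : (1 + 9 / 5 * s - 25 / 16 * s ^ 2) ^ 2 ≤ (2 * c) ^ 2 := by
        have : (2 * c) ^ 2 = 4 - 4 * s ^ 2 := by nlinarith
        rw [this]
        nlinarith [mul_nonneg hs (by linarith : (0 : ℝ) ≤ 53 / 100 - s), sq_nonneg s,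
          mul_nonneg (mul_nonneg hs hs) (by linarith : (0 : ℝ) ≤ 53 / 100 - s),
          mul_nonneg (mul_nonneg (mul_nonneg hs hs) hs) (by linarith : (0 : ℝ) ≤ 53 / 100 - s)]
      have h5 : 1 + 9 / 5 * s - 25 / 16 * s ^ 2 ≤ 2 * c :=
        abs_le_of_sq_le_sq' h4 (by positivity) |>.2
      rw [hκdef]; linarith
    have hκ3 : 0 ≤ 1 - 25 / 16 * s ^ 2 := by nlinarith
    have := convex_quad_le (25 / 16) (κ ^ 2) (9 / 16 * s ^ 2) (t ^ 2) ((c * s) ^ 2) ((κ * s) ^ 2)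
      (sq_nonneg t) ht2 (by
        have : 9 / 16 * s ^ 2 ≤ κ * s := by nlinarith
        exact pow_le_pow_left₀ (by positivity) this 2) ?_
    · have e : (9 / 16 * s ^ 2 - 25 / 16 * t ^ 2) ^ 2 + (κ * t) ^ 2
          = (9 / 16 * s ^ 2 - 25 / 16 * t ^ 2) ^ 2 + κ ^ 2 * t ^ 2 := by ring
      rw [e]
      exact this
    · have e : (9 / 16 * s ^ 2 - 25 / 16 * (c * s) ^ 2) ^ 2 + κ ^ 2 * (c * s) ^ 2
          = s ^ 4 * (1 - 25 / 16 * s ^ 2) ^ 2 + κ ^ 2 * (1 - s ^ 2) * s ^ 2 := by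
        have hc2 : c ^ 2 = 1 - s ^ 2 := by linarith
        have : (c * s) ^ 2 = (1 - s ^ 2) * s ^ 2 := by rw [mul_pow, hc2]
        rw [this]
        ring
      rw [e]
      have : (1 - 25 / 16 * s ^ 2) ^ 2 ≤ κ ^ 2 := by
        exact pow_le_pow_left₀ hκ3 hκ2 2
      have hs4 : 0 ≤ s ^ 4 := by positivity
      nlinarith [mul_le_mul_of_nonneg_left this hs4]
  · -- the K term
    intro k hk
    have hk1 := (abs_le.mp hk).1
    have hk2 := (abs_le.mp hk).2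
    have key : (5 / 2 * s ^ 2) ^ 2 - ((25 / 32 * (k ^ 2 - s ^ 2) + 2 * (5 * s) / 5 * k) ^ 2
        + (25 / 24 * (k ^ 2 - s ^ 2) + 3 * (5 * s) / 10 * k) ^ 2)
        = (s - k) * (s + k) ^ 2 * (25 / 4 * s - 15625 / 9216 * (s - k)) := by ring
    have h1 : 0 ≤ (s - k) * (s + k) ^ 2 * (25 / 4 * s - 15625 / 9216 * (s - k)) := by
      have h2 : 0 ≤ s - k := by linarith
      have h3 : 0 ≤ 25 / 4 * s - 15625 / 9216 * (s - k) := by nlinarith
      positivity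
    linarith

/-- Numerical bound on the lobe with `c = 132 / 157`, `s = 85 / 157`. -/
theorem lobe_numeric_bound (A : H →L[ℂ] H) (M : ℝ) (hM : 80 / 89 ≤ M)
    (hA : ∀ x : H, ‖x‖ = 1 → 0 < (inner ℂ x (A x)).re ∧
      ‖(inner ℂ x (A x)) ^ 2 - 1‖ ≤ 2 * (132 / 157) * (85 / 157)) :
    ‖A ^ 2 - 1‖ ≤ 2 * M := by
  have hb := lobe_bound A (132 / 157) (85 / 157) (5 / 2) (39 / 100) (681 / 1000)
    (by norm_num) (by norm_num) (by norm_num) hA (by norm_num) (by norm_num) ?_ ?_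
  · have h1 : |2 * (132 / 157 : ℝ) - 16 / 25 * (5 / 2)| = 2 * (132 / 157 : ℝ) - 16 / 25 * (5 / 2) := by
      apply abs_of_nonneg; norm_num
    rw [h1] at hb
    have h2 : (2 * (132 / 157 : ℝ) - 16 / 25 * (5 / 2)) * (85 / 157) + 39 / 100 + 2 * (681 / 1000)
        ≤ 2 * (80 / 89) := by norm_num
    linarith
  · intro t ht
    have ht2 : t ^ 2 ≤ ((132 / 157 : ℝ) * (85 / 157)) ^ 2 := by
      exact sq_le_sq' (by linarith [(abs_le.mp ht).1]) (abs_le.mp ht).2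
    have := convex_quad_le (25 / 16) ((2 * (132 / 157 : ℝ) - 9 / 25 * (5 / 2)) ^ 2)
      ((132 / 157 : ℝ) ^ 2 - 1 + 25 / 16 * (85 / 157) ^ 2) (t ^ 2)
      (((132 / 157 : ℝ) * (85 / 157)) ^ 2) ((39 / 100) ^ 2) (sq_nonneg t) ht2
      (by norm_num) (by norm_num)
    have e : ((132 / 157 : ℝ) ^ 2 - 1 + 25 / 16 * (85 / 157) ^ 2 - 25 / 16 * t ^ 2) ^ 2
        + ((2 * (132 / 157 : ℝ) - 9 / 25 * (5 / 2)) * t) ^ 2
        = ((132 / 157 : ℝ) ^ 2 - 1 + 25 / 16 * (85 / 157) ^ 2 - 25 / 16 * t ^ 2) ^ 2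
          + (2 * (132 / 157 : ℝ) - 9 / 25 * (5 / 2)) ^ 2 * t ^ 2 := by ring
    rw [e]
    exact this
  · intro k hk
    obtain ⟨τ, rfl⟩ : ∃ τ : ℝ, k = (85 / 157) * (2 * τ - 1) :=
      ⟨(k + 85 / 157) / (2 * (85 / 157)), by field_simp; ring⟩
    have hk1 := (abs_le.mp hk).1
    have hk2 := (abs_le.mp hk).2
    have h0 : 0 ≤ τ := by linarith
    have h1 : τ ≤ 1 := by linarith
    have hb : bernOK 31541883358149 (-829475156250000) 9779147568359375 3794620800781250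
        (-12744293212890625) 8 = true := by decide +kernel
    have := bernOK_nonneg _ _ _ _ _ 8 (by norm_num) hb τ h0 h1
    push_cast at this
    have hid : (31541883358149 : ℝ) + -829475156250000 * τ + 9779147568359375 * τ ^ 2
        + 3794620800781250 * τ ^ 3 + -12744293212890625 * τ ^ 4
        = 5468158809000000 * ((681 / 1000) ^ 2
          - ((25 / 32 * (((85 / 157) * (2 * τ - 1)) ^ 2 - (85 / 157) ^ 2)
              + 2 * (5 / 2) / 5 * ((85 / 157) * (2 * τ - 1))) ^ 2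
            + (25 / 24 * (((85 / 157) * (2 * τ - 1)) ^ 2 - (85 / 157) ^ 2)
              + 3 * (5 / 2) / 10 * ((85 / 157) * (2 * τ - 1))) ^ 2)) := by
      ring
    rw [hid] at this
    have h5 := nonneg_of_mul_nonneg_right this (by norm_num)
    linarith

/-- If `|z ^ 2 - 1| ≤ M < 1` on the numerical range, the real part of the numerical range has a
constant sign. -/
theorem re_sign (A : H →L[ℂ] H) (M : ℝ) (hM : M < 1)
    (hA : ∀ x : H, ‖x‖ = 1 → ‖(inner ℂ x (A x)) ^ 2 - 1‖ ≤ M) :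
    (∀ x : H, ‖x‖ = 1 → 0 < (inner ℂ x (A x)).re) ∨ (∀ x : H, ‖x‖ = 1 → (inner ℂ x (A x)).re < 0) := by
  -- the real part never vanishes
  have hne : ∀ x : H, ‖x‖ = 1 → (inner ℂ x (A x)).re ≠ 0 := by
    intro x hx h0
    have h1 := hA x hx
    set z : ℂ := inner ℂ x (A x)
    have h2 : ‖z ^ 2 - 1‖ ≥ 1 := by
      have h3 : |(z ^ 2 - 1).re| ≤ ‖z ^ 2 - 1‖ := Complex.abs_re_le_norm _
      have h4 : (z ^ 2 - 1).re = -(z.im ^ 2) - 1 := by
        simp [pow_two, h0]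
      rw [h4] at h3
      have h5 : |-(z.im ^ 2) - 1| = z.im ^ 2 + 1 := by
        rw [abs_of_nonpos (by nlinarith [sq_nonneg z.im])]
        ring
      rw [h5] at h3
      nlinarith [sq_nonneg z.im]
    linarith
  by_contra hcon
  push Not at hcon
  obtain ⟨⟨x, hx, hx0⟩, ⟨y, hy, hy0⟩⟩ := hcon
  have hx1 : (inner ℂ x (A x)).re < 0 := lt_of_le_of_ne hx0 (hne x hx)
  have hy1 : 0 < (inner ℂ y (A y)).re := lt_of_le_of_ne hy0 (Ne.symm (hne y hy))
  -- path from `x` to `y`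
  let v : ℝ → H := fun t => ((1 - t : ℝ) : ℂ) • x + ((t : ℝ) : ℂ) • y
  let f : ℝ → ℝ := fun t => (inner ℂ (v t) (A (v t))).re
  have hvc : Continuous v := by
    simp only [v]
    fun_prop
  have hf : Continuous f := by
    simp only [f]
    have h1 : Continuous fun t => inner ℂ (v t) (A (v t)) :=
      Continuous.inner hvc (A.continuous.comp hvc)
    exact Complex.continuous_re.comp h1
  have hf0 : f 0 = (inner ℂ x (A x)).re := by simp [f, v]
  have hf1 : f 1 = (inner ℂ y (A y)).re := by simp [f, v]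
  have hmem : (0 : ℝ) ∈ Set.Icc (f 0) (f 1) := by
    rw [hf0, hf1]
    exact ⟨hx1.le, hy1.le⟩
  obtain ⟨t, ht, hft⟩ := intermediate_value_Icc (zero_le_one) hf.continuousOn hmem
  -- the vector `v t` does not vanish
  by_cases hv : v t = 0
  · -- then `y = -x`
    have ht0 : t ≠ 0 := by
      rintro rfl
      simp [v] at hv
      rw [hv, norm_zero] at hx
      norm_num at hx
    have htc : ((t : ℝ) : ℂ) ≠ 0 := by exact_mod_cast ht0
    have hy2 : y = (-((1 - t : ℝ) : ℂ) / (t : ℂ)) • x := by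
      have h1 : ((t : ℝ) : ℂ) • y = -(((1 - t : ℝ) : ℂ) • x) := by
        have := hv
        simp only [v] at this
        exact eq_neg_of_add_eq_zero_right this
      have h2 : y = ((t : ℝ) : ℂ)⁻¹ • (((t : ℝ) : ℂ) • y) := by
        rw [smul_smul, inv_mul_cancel₀ htc, one_smul]
      rw [h2, h1, smul_neg, smul_smul, ← neg_smul]
      congr 1
      field_simp
    have hcr : (-((1 - t : ℝ) : ℂ) / (t : ℂ)) = ((-(1 - t) / t : ℝ) : ℂ) := by push_cast; ring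
    rw [hcr] at hy2
    set r : ℝ := -(1 - t) / t with hr
    have hnorm : |r| = 1 := by
      have h1 := hy
      rw [hy2, norm_smul, hx, mul_one, Complex.norm_real, Real.norm_eq_abs] at h1
      exact h1
    have hrr : r ^ 2 = 1 := by
      rw [← sq_abs, hnorm]; norm_num
    have heq : (inner ℂ y (A y)).re = (inner ℂ x (A x)).re := by
      rw [hy2, map_smul, inner_smul_left, inner_smul_right, Complex.conj_ofReal]
      have : ((r : ℂ) * ((r : ℂ) * inner ℂ x (A x))) = ((r ^ 2 : ℝ) : ℂ) * inner ℂ x (A x) := by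
        push_cast; ring
      rw [this, hrr]
      simp
    linarith
  · -- normalize
    have hn : ‖v t‖ ≠ 0 := norm_ne_zero_iff.mpr hv
    set u : H := ((‖v t‖⁻¹ : ℝ) : ℂ) • v t with hu
    have hun : ‖u‖ = 1 := by
      rw [hu, norm_smul, Complex.norm_real, norm_inv, norm_norm]
      field_simp
    have hu0 : (inner ℂ u (A u)).re = 0 := by
      rw [hu, map_smul, inner_smul_left, inner_smul_right, Complex.conj_ofReal]
      have : (((‖v t‖⁻¹ : ℝ) : ℂ) * (((‖v t‖⁻¹ : ℝ) : ℂ) * inner ℂ (v t) (A (v t))))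
          = (((‖v t‖⁻¹ * ‖v t‖⁻¹ : ℝ)) : ℂ) * inner ℂ (v t) (A (v t)) := by
        push_cast; ring
      rw [this, Complex.re_ofReal_mul]
      have : (inner ℂ (v t) (A (v t))).re = 0 := hft
      rw [this, mul_zero]
    exact hne u hun hu0

end Vale.Agent.helper3.Ridge
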