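import Mathlib

/-!
# Real and imaginary parts of an operator, and polynomial bounds for self-adjoint operators
-/

open Polynomial ContinuousLinearMap

namespace Vale.Agent.helper3.Ridge

variable {H : Type*} [NormedAddCommGroup H] [InnerProductSpace ℂ H] [CompleteSpace H]

/-- Real part of an operator. -/
noncomputable def reOp (A : H →L[ℂ] H) : H →L[ℂ] H :=
  ((1 / 2 : ℂ)) • (A + adjoint A)

/-- Imaginary part of an operator. -/
noncomputable def imOp (A : H →L[ℂ] H) : H →L[ℂ] H :=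
  ((-Complex.I / 2 : ℂ)) • (A - adjoint A)

lemma reOp_add_imOp (A : H →L[ℂ] H) : reOp A + Complex.I • imOp A = A := by
  unfold reOp imOp
  rw [smul_smul]
  have : Complex.I * (-Complex.I / 2) = (1 / 2 : ℂ) := by
    have := Complex.I_mul_I
    linear_combination (-1 / 2 : ℂ) * this
  rw [this, ← smul_add]
  have h2 : A + adjoint A + (A - adjoint A) = (2 : ℂ) • A := by
    rw [two_smul]; abel
  rw [h2, smul_smul]
  norm_num

lemma isSelfAdjoint_reOp (A : H →L[ℂ] H) : IsSelfAdjoint (reOp A) := by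
  rw [ContinuousLinearMap.isSelfAdjoint_iff']
  unfold reOp
  simp only [map_add, adjoint_adjoint, map_div₀, map_one,
    map_ofNat, LinearIsometryEquiv.map_smulₛₗ, map_add]
  simp [add_comm]

lemma isSelfAdjoint_imOp (A : H →L[ℂ] H) : IsSelfAdjoint (imOp A) := by
  rw [ContinuousLinearMap.isSelfAdjoint_iff']
  unfold imOp
  simp only [LinearIsometryEquiv.map_smulₛₗ, map_sub, adjoint_adjoint]
  have h : (starRingEnd ℂ) (-Complex.I / 2) = -(-Complex.I / 2) := by
    rw [map_div₀, map_neg, Complex.conj_I, map_ofNat]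
    ring
  rw [h, neg_smul, ← smul_neg, neg_sub]

lemma inner_reOp (A : H →L[ℂ] H) (x : H) :
    inner ℂ x (reOp A x) = ((inner ℂ x (A x)).re : ℂ) := by
  unfold reOp
  simp only [smul_apply, add_apply, inner_smul_right, inner_add_right]
  rw [adjoint_inner_right, ← inner_conj_symm (A x) x]
  generalize inner ℂ x (A x) = z
  apply Complex.ext <;> simp
  ring

lemma inner_imOp (A : H →L[ℂ] H) (x : H) :
    inner ℂ x (imOp A x) = ((inner ℂ x (A x)).im : ℂ) := by
  unfold imOp
  simp only [smul_apply, sub_apply, inner_smul_right, inner_sub_right]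
  rw [adjoint_inner_right, ← inner_conj_symm (A x) x]
  generalize inner ℂ x (A x) = z
  apply Complex.ext <;> simp <;> ring

/-- The self-adjoint operator `u Re A + v Im A`. -/
noncomputable def dirOp (A : H →L[ℂ] H) (u v : ℝ) : H →L[ℂ] H :=
  (u : ℂ) • reOp A + (v : ℂ) • imOp A

lemma isSelfAdjoint_dirOp (A : H →L[ℂ] H) (u v : ℝ) : IsSelfAdjoint (dirOp A u v) := by
  have h1 := (ContinuousLinearMap.isSelfAdjoint_iff' (A := reOp A)).mp (isSelfAdjoint_reOp A)
  have h2 := (ContinuousLinearMap.isSelfAdjoint_iff' (A := imOp A)).mp (isSelfAdjoint_imOp A)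
  rw [ContinuousLinearMap.isSelfAdjoint_iff']
  unfold dirOp
  rw [map_add, LinearIsometryEquiv.map_smulₛₗ, LinearIsometryEquiv.map_smulₛₗ, h1, h2,
    Complex.conj_ofReal, Complex.conj_ofReal]

lemma inner_dirOp (A : H →L[ℂ] H) (u v : ℝ) (x : H) :
    inner ℂ x (dirOp A u v x) = ((u * (inner ℂ x (A x)).re + v * (inner ℂ x (A x)).im : ℝ) : ℂ) := by
  unfold dirOp
  simp only [add_apply, smul_apply, inner_add_right, inner_smul_right, inner_reOp, inner_imOp]
  push_cast
  ring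

/-- For a self-adjoint operator the operator norm is at most any bound for the quadratic form. -/
lemma opNorm_le_of_form (T : H →L[ℂ] H) (hT : IsSelfAdjoint T) (r : ℝ) (hr : 0 ≤ r)
    (h : ∀ x : H, ‖x‖ = 1 → |(inner ℂ x (T x)).re| ≤ r) : ‖T‖ ≤ r := by
  have hgen : ∀ x : H, |(inner ℂ x (T x)).re| ≤ r * ‖x‖ ^ 2 := by
    intro x
    by_cases hx : x = 0
    · simp [hx]
    · have hn : ‖x‖ ≠ 0 := norm_ne_zero_iff.mpr hx
      have hu : ‖((‖x‖ : ℂ)⁻¹) • x‖ = 1 := by
        rw [norm_smul, norm_inv, Complex.norm_real, norm_norm]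
        field_simp
      have := h _ hu
      rw [map_smul, inner_smul_left, inner_smul_right] at this
      simp only [map_inv₀, Complex.conj_ofReal] at this
      have e : ((‖x‖ : ℂ)⁻¹ * ((‖x‖ : ℂ)⁻¹ * inner ℂ x (T x)))
          = (((‖x‖ ^ 2)⁻¹ : ℝ) : ℂ) * inner ℂ x (T x) := by
        push_cast
        field_simp
      rw [e, Complex.re_ofReal_mul, abs_mul, abs_of_nonneg (by positivity)] at this
      have hpos : 0 < ‖x‖ ^ 2 := by positivity
      calc |(inner ℂ x (T x)).re| = ‖x‖ ^ 2 * ((‖x‖ ^ 2)⁻¹ * |(inner ℂ x (T x)).re|) := by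
            field_simp
        _ ≤ ‖x‖ ^ 2 * r := by gcongr
        _ = r * ‖x‖ ^ 2 := by ring
  have hsym : ∀ x y : H, inner ℂ (T x) y = inner ℂ x (T y) := fun x y =>
    (ContinuousLinearMap.isSelfAdjoint_iff_isSymmetric.mp hT) x y
  refine ContinuousLinearMap.opNorm_le_bound _ hr ?_
  intro x
  by_cases hx : x = 0
  · simp [hx]
  by_cases hTx : T x = 0
  · rw [hTx, norm_zero]; positivity
  have hxn : 0 < ‖x‖ := norm_pos_iff.mpr hx
  have hTxn : 0 < ‖T x‖ := norm_pos_iff.mpr hTx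
  -- put y = (‖x‖ / ‖T x‖) T x
  set c : ℝ := ‖x‖ / ‖T x‖ with hc
  have hcpos : 0 < c := by positivity
  set y : H := (c : ℂ) • T x with hy
  have hyn : ‖y‖ = ‖x‖ := by
    rw [hy, norm_smul, Complex.norm_real, Real.norm_of_nonneg hcpos.le, hc]
    field_simp
  have hinner : (inner ℂ y (T x)).re = c * ‖T x‖ ^ 2 := by
    rw [hy, inner_smul_left, Complex.conj_ofReal, Complex.re_ofReal_mul,
      inner_self_eq_norm_sq_to_K]
    norm_cast
  -- polarization
  have hpol : (inner ℂ (x + y) (T (x + y))).re - (inner ℂ (x - y) (T (x - y))).re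
      = 4 * (inner ℂ y (T x)).re := by
    have h1 : inner ℂ x (T y) = inner ℂ (T x) y := (hsym x y).symm
    have h2 : (inner ℂ (T x) y).re = (inner ℂ y (T x)).re := by
      rw [← inner_conj_symm (T x) y, Complex.conj_re]
    simp only [map_add, map_sub, inner_add_left, inner_add_right, inner_sub_left,
      inner_sub_right, Complex.add_re, Complex.sub_re, h1, h2]
    ring
  have hb1 := hgen (x + y)
  have hb2 := hgen (x - y)
  have hpar : ‖x + y‖ ^ 2 + ‖x - y‖ ^ 2 = 2 * (‖x‖ ^ 2 + ‖y‖ ^ 2) := by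
    have := parallelogram_law_with_norm ℂ x y
    nlinarith
  have hkey : 4 * (c * ‖T x‖ ^ 2) ≤ r * (2 * (‖x‖ ^ 2 + ‖y‖ ^ 2)) := by
    rw [← hinner, ← hpol, ← hpar]
    have := abs_le.mp hb1
    have := abs_le.mp hb2
    linarith [(abs_le.mp hb1).2, (abs_le.mp hb2).1]
  rw [hyn] at hkey
  have hcT : c * ‖T x‖ ^ 2 = ‖x‖ * ‖T x‖ := by
    rw [hc]; field_simp
  rw [hcT] at hkey
  have : ‖x‖ * ‖T x‖ ≤ ‖x‖ * (r * ‖x‖) := by nlinarith
  exact le_of_mul_le_mul_left this hxn

/-- Polynomial bound: if `T` is self-adjoint with form bound `r`, then `‖q(T)‖ ≤ S` as soon as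
`|q| ≤ S` on `[-r, r]`. -/
lemma norm_aeval_le_of_form (T : H →L[ℂ] H) (hT : IsSelfAdjoint T) (r : ℝ) (hr : 0 ≤ r)
    (h : ∀ x : H, ‖x‖ = 1 → |(inner ℂ x (T x)).re| ≤ r) (q : ℂ[X]) (S : ℝ) (hS : 0 ≤ S)
    (hq : ∀ t : ℝ, |t| ≤ r → ‖q.eval (t : ℂ)‖ ≤ S) : ‖aeval T q‖ ≤ S := by
  have h1 : cfc (fun z => q.eval z) T = aeval T q := cfc_polynomial q T hT.isStarNormal
  rw [← h1]
  refine norm_cfc_le hS ?_
  intro z hz
  have hz' := hT.mem_spectrum_eq_re hz
  rcases subsingleton_or_nontrivial H with hsub | hnt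
  · have : Subsingleton (H →L[ℂ] H) := inferInstance
    rw [spectrum.of_subsingleton] at hz
    exact absurd hz (Set.notMem_empty z)
  have : NormOneClass (H →L[ℂ] H) := inferInstance
  have hn : ‖z‖ ≤ ‖T‖ := spectrum.norm_le_norm_of_mem hz
  have hT' := opNorm_le_of_form T hT r hr h
  rw [hz']
  apply hq
  have : ‖z‖ = |z.re| := by
    rw [hz']
    simp
  rw [← this]
  exact hn.trans hT'

/-- The quadratic form of `dirOp`. -/
lemma dirOp_form (A : H →L[ℂ] H) (u v : ℝ) (x : H) :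
    (inner ℂ x (dirOp A u v x)).re = u * (inner ℂ x (A x)).re + v * (inner ℂ x (A x)).im := by
  rw [inner_dirOp, Complex.ofReal_re]

end Vale.Agent.helper3.Ridge
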